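import Vale.Agent.P092.SR.Blocks

/-!
P092 (helper113): [IRR-ISO] of project B.
-/

set_option linter.all false

open Set Topology Filter MeasureTheory

namespace Vale.Agent.P092.H113

open Vale.Agent.P092.H515.St Vale.Agent.P092.SR

section map

variable {G H : Type} [Group G] [TopologicalSpace G] [Group H] [TopologicalSpace H]

/-- the map induced on the quotients -/
def qm (e : G ≃ₜ* H) (L : Subgroup G) :
    G ⧸ L → H ⧸ L.map e.toMulEquiv.toMonoidHom :=
  Quotient.lift (fun g => (QuotientGroup.mk (e g) : H ⧸ L.map e.toMulEquiv.toMonoidHom)) (by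
    intro a b hab
    have hab' : a⁻¹ * b ∈ L := by
      rwa [← QuotientGroup.leftRel_apply]
    rw [QuotientGroup.eq, ← map_inv, ← map_mul]
    exact ⟨_, hab', rfl⟩)

theorem qm_mk (e : G ≃ₜ* H) (L : Subgroup G) (g : G) :
    qm e L (QuotientGroup.mk g) = QuotientGroup.mk (e g) := rfl

/-- the inverse map -/
def qi (e : G ≃ₜ* H) (L : Subgroup G) :
    H ⧸ L.map e.toMulEquiv.toMonoidHom → G ⧸ L :=
  Quotient.lift (fun h => (QuotientGroup.mk (e.symm h) : G ⧸ L)) (by
    intro a b hab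
    have hab' : a⁻¹ * b ∈ L.map e.toMulEquiv.toMonoidHom := by
      rwa [← QuotientGroup.leftRel_apply]
    rw [QuotientGroup.eq, ← map_inv, ← map_mul]
    obtain ⟨l, hl, h⟩ := hab'
    have h' : e l = a⁻¹ * b := h
    have : e.symm (a⁻¹ * b) = l := by
      rw [← h']; exact e.symm_apply_apply l
    rw [this]; exact hl)

theorem qi_mk (e : G ≃ₜ* H) (L : Subgroup G) (h : H) :
    qi e L (QuotientGroup.mk h) = QuotientGroup.mk (e.symm h) := rfl

/-- the homeomorphism of the quotients -/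
def qh (e : G ≃ₜ* H) (L : Subgroup G) :
    G ⧸ L ≃ₜ H ⧸ L.map e.toMulEquiv.toMonoidHom where
  toFun := qm e L
  invFun := qi e L
  left_inv := by
    intro x
    obtain ⟨a, rfl⟩ := QuotientGroup.mk_surjective x
    rw [qm_mk, qi_mk]
    congr 1
    exact e.symm_apply_apply a
  right_inv := by
    intro x
    obtain ⟨a, rfl⟩ := QuotientGroup.mk_surjective x
    rw [qi_mk, qm_mk]
    congr 1
    exact e.apply_symm_apply a
  continuous_toFun := continuous_quot_lift _ (continuous_quotient_mk'.comp e.continuous)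
  continuous_invFun := continuous_quot_lift _ (continuous_quotient_mk'.comp e.symm.continuous)

/-- A topological isomorphism maps lattices to lattices. -/
theorem lat_map (e : G ≃ₜ* H) {L : Subgroup G} (hL : IsLattice L) :
    IsLattice (L.map e.toMulEquiv.toMonoidHom) := by
  refine ⟨?_, ?_⟩
  · have := hL.disc
    have hm : ∀ y : L.map e.toMulEquiv.toMonoidHom, e.symm (y : H) ∈ L := by
      rintro ⟨y, l, hl, rfl⟩
      have : e.symm (e l) = l := e.symm_apply_apply l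
      exact this.symm ▸ hl
    refine DiscreteTopology.of_continuous_injective
      (f := fun y : L.map e.toMulEquiv.toMonoidHom => (⟨e.symm (y : H), hm y⟩ : L)) ?_ ?_
    · exact (e.symm.continuous.comp continuous_subtype_val).subtype_mk _
    · intro a b hab
      have h := congrArg Subtype.val hab
      exact Subtype.ext (e.symm.injective h)
  · obtain ⟨ν, h0, h1, h2⟩ := hL.covol
    let _ : MeasurableSpace (G ⧸ L) := borel _
    have : BorelSpace (G ⧸ L) := ⟨rfl⟩
    let _ : MeasurableSpace (H ⧸ L.map e.toMulEquiv.toMonoidHom) := borel _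
    have : BorelSpace (H ⧸ L.map e.toMulEquiv.toMonoidHom) := ⟨rfl⟩
    let f : (G ⧸ L) ≃ᵐ (H ⧸ L.map e.toMulEquiv.toMonoidHom) := (qh e L).toMeasurableEquiv
    have hf : ∀ g : G, f (QuotientGroup.mk g) = QuotientGroup.mk (e g) := fun _ => rfl
    refine ⟨ν.map f, ?_, ?_, ?_⟩
    · intro h
      apply h0
      rw [← Measure.measure_univ_eq_zero]
      have h3 : ν.map f univ = 0 := by rw [h]; rfl
      rw [f.map_apply] at h3
      exact h3
    · rw [f.map_apply]
      exact h1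
    · intro g s hsm
      obtain ⟨g, rfl⟩ := e.surjective g
      rw [f.map_apply, f.map_apply, ← h2 g _ (f.measurable hsm)]
      congr 1
      ext x
      obtain ⟨a, rfl⟩ := QuotientGroup.mk_surjective x
      have e1 : (g • (QuotientGroup.mk a : G ⧸ L)) = QuotientGroup.mk (g * a) := rfl
      have e2 : (e g • (QuotientGroup.mk (e a) : H ⧸ L.map e.toMulEquiv.toMonoidHom)) =
        QuotientGroup.mk (e g * e a) := rfl
      simp only [mem_preimage, e1, hf, e2, map_mul]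

end map

theorem cos_comap {G H : Type} [Group G] [TopologicalSpace G] [Group H] [TopologicalSpace H]
    (e : G ≃ₜ* H) {K : Subgroup H} (hK : COS K) : COS (K.comap e.toMulEquiv.toMonoidHom) := by
  refine ⟨?_, ?_⟩
  · exact e.toHomeomorph.isCompact_preimage.2 hK.1
  · exact hK.2.preimage e.continuous

/-- exchange of the factors -/
def swp (G H : Type) [Group G] [TopologicalSpace G] [Group H] [TopologicalSpace H] :
    G × H ≃ₜ* H × G :=
  { (MulEquiv.prodComm : G × H ≃* H × G) with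
    continuous_toFun := continuous_swap
    continuous_invFun := continuous_swap }

/-- product of isomorphisms -/
def prd {G₁ G₂ H₁ H₂ : Type} [Group G₁] [Group G₂] [Group H₁] [Group H₂]
    [TopologicalSpace G₁] [TopologicalSpace G₂] [TopologicalSpace H₁] [TopologicalSpace H₂]
    (ψ₁ : G₁ ≃ₜ* H₁) (ψ₂ : G₂ ≃ₜ* H₂) : G₁ × G₂ ≃ₜ* H₁ × H₂ :=
  { ψ₁.toMulEquiv.prodCongr ψ₂.toMulEquiv with
    continuous_toFun := ψ₁.continuous.prodMap ψ₂.continuous
    continuous_invFun := ψ₁.symm.continuous.prodMap ψ₂.symm.continuous }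

/-- `Irr` is symmetric. -/
theorem irr_symm {Γ G₁ G₂ : Type} [Group Γ] [Group G₁] [Group G₂] [TopologicalSpace G₁]
    [TopologicalSpace G₂] {p₁ : Γ →* G₁} {p₂ : Γ →* G₂} (hI : SR.Irr p₁ p₂) : SR.Irr p₂ p₁ where
  countable := hI.countable
  inj₁ := hI.inj₂
  inj₂ := hI.inj₁
  dense₁ := hI.dense₂
  dense₂ := hI.dense₁
  disc := fun C₁ C₂ h1 h2 => (hI.disc C₂ C₁ h2 h1).subset fun _ hg => ⟨hg.2, hg.1⟩
  lat := by
    have h := lat_map (swp G₁ G₂) hI.lat
    have h2 : (p₁.prod p₂).range.map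
        (swp G₁ G₂).toMulEquiv.toMonoidHom =
        (p₂.prod p₁).range := by
      ext ⟨a, b⟩
      constructor
      · rintro ⟨_, ⟨g, rfl⟩, h⟩
        exact ⟨g, h⟩
      · rintro ⟨g, h⟩
        exact ⟨_, ⟨g, rfl⟩, h⟩
    rwa [h2] at h
  lat₁ := hI.lat₂
  lat₂ := hI.lat₁

theorem irr_map {Γ G₁ G₂ H₁ H₂ : Type} [Group Γ] [Group G₁] [Group G₂] [Group H₁] [Group H₂]
    [TopologicalSpace G₁] [TopologicalSpace G₂] [TopologicalSpace H₁] [TopologicalSpace H₂]
    {p₁ : Γ →* G₁} {p₂ : Γ →* G₂} (ψ₁ : G₁ ≃ₜ* H₁) (ψ₂ : G₂ ≃ₜ* H₂) (hI : SR.Irr p₁ p₂) :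
    SR.Irr (ψ₁.toMulEquiv.toMonoidHom.comp p₁) (ψ₂.toMulEquiv.toMonoidHom.comp p₂) where
  countable := hI.countable
  inj₁ := ψ₁.injective.comp hI.inj₁
  inj₂ := ψ₂.injective.comp hI.inj₂
  dense₁ := ψ₁.surjective.denseRange.comp hI.dense₁ ψ₁.continuous
  dense₂ := ψ₂.surjective.denseRange.comp hI.dense₂ ψ₂.continuous
  disc := by
    intro C₁ C₂ h1 h2
    exact hI.disc (ψ₁ ⁻¹' C₁) (ψ₂ ⁻¹' C₂) (ψ₁.toHomeomorph.isCompact_preimage.2 h1)
      (ψ₂.toHomeomorph.isCompact_preimage.2 h2)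
  lat := by
    have h := lat_map (prd ψ₁ ψ₂) hI.lat
    have h2 : (p₁.prod p₂).range.map (prd ψ₁ ψ₂).toMulEquiv.toMonoidHom =
        ((ψ₁.toMulEquiv.toMonoidHom.comp p₁).prod (ψ₂.toMulEquiv.toMonoidHom.comp p₂)).range := by
      ext ⟨a, b⟩
      constructor
      · rintro ⟨_, ⟨g, rfl⟩, h⟩
        exact ⟨g, h⟩
      · rintro ⟨g, h⟩
        exact ⟨_, ⟨g, rfl⟩, h⟩
    rwa [h2] at h
  lat₁ := by
    intro K hK
    have h := lat_map ψ₁ (hI.lat₁ _ (cos_comap ψ₂ hK))
    rwa [Subgroup.map_map, Subgroup.comap_comap] at h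
  lat₂ := by
    intro K hK
    have h := lat_map ψ₂ (hI.lat₂ _ (cos_comap ψ₁ hK))
    rwa [Subgroup.map_map, Subgroup.comap_comap] at h

theorem irrIsoStmt : SR.IrrIsoStmt := by
  intro Γ G₁ G₂ H₁ H₂ _ _ _ _ _ _ _ _ _ p₁ p₂ ψ₁ ψ₂ h
  exact ⟨irr_map ψ₁ ψ₂ h, irr_symm h⟩

end Vale.Agent.P092.H113
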