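import Vale.Agent.P092.SR.Blocks

/-!
P092 (helper113): [PASS] of project B: passage to the quotient by finite centres.
-/

set_option linter.all false

open scoped InnerProductSpace
open Set Topology Filter ContinuousLinearMap

namespace Vale.Agent.P092.H113

open Vale.Agent.P092.SR

section av

variable {Γ ℋ : Type} [Group Γ] [NormedAddCommGroup ℋ] [InnerProductSpace ℂ ℋ] [CompleteSpace ℋ]

/-- The sum of `T q x T q⁻¹` over `q ∈ Φ₁ / Φ`. -/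
noncomputable def av (T : Γ →* (ℋ →L[ℂ] ℋ)) (Φ Φ₁ : Subgroup Γ) [Fintype (Φ₁ ⧸ Φ.subgroupOf Φ₁)]
    (x : ℋ →L[ℂ] ℋ) : ℋ →L[ℂ] ℋ :=
  ∑ q : Φ₁ ⧸ Φ.subgroupOf Φ₁, T (q.out : Γ) * x * T (q.out : Γ)⁻¹

variable (T : Γ →* (ℋ →L[ℂ] ℋ)) (Φ Φ₁ : Subgroup Γ) [Fintype (Φ₁ ⧸ Φ.subgroupOf Φ₁)]
  {x : ℋ →L[ℂ] ℋ}

theorem conj_indep {T : Γ →* (ℋ →L[ℂ] ℋ)} {Φ : Subgroup Γ} (hx : ∀ g ∈ Φ, x * T g = T g * x)
    {a b : Γ} (h : a⁻¹ * b ∈ Φ) : T a * x * T a⁻¹ = T b * x * T b⁻¹ := by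
  have hb : b = a * (a⁻¹ * b) := by group
  rw [hb]
  generalize a⁻¹ * b = c at h ⊢
  rw [mul_inv_rev, map_mul, map_mul]
  have h1 : T a * T c * x * (T c⁻¹ * T a⁻¹) = T a * (T c * x) * (T c⁻¹ * T a⁻¹) := by
    simp only [mul_assoc]
  rw [h1, ← hx c h]
  have h2 : T a * (x * T c) * (T c⁻¹ * T a⁻¹) = T a * x * (T c * T c⁻¹) * T a⁻¹ := by
    simp only [mul_assoc]
  rw [h2, ← map_mul, mul_inv_cancel, map_one, mul_one]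

theorem av_comm {T : Γ →* (ℋ →L[ℂ] ℋ)} {Φ Φ₁ : Subgroup Γ} [Fintype (Φ₁ ⧸ Φ.subgroupOf Φ₁)]
    (hx : ∀ g ∈ Φ, x * T g = T g * x) :
    ∀ g ∈ Φ₁, av T Φ Φ₁ x * T g = T g * av T Φ Φ₁ x := by
  intro g hg
  have key : T g * av T Φ Φ₁ x * T g⁻¹ = av T Φ Φ₁ x := by
    unfold av
    rw [Finset.mul_sum, Finset.sum_mul]
    refine Fintype.sum_equiv (MulAction.toPerm (⟨g, hg⟩ : Φ₁)) _ _ ?_
    intro q
    have h1 : T g * (T (q.out : Γ) * x * T (q.out : Γ)⁻¹) * T g⁻¹ =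
        T (g * q.out) * x * T (g * q.out)⁻¹ := by
      rw [mul_inv_rev, map_mul, map_mul]
      simp only [mul_assoc]
    rw [h1]
    apply conj_indep hx
    have h2 : (MulAction.toPerm (⟨g, hg⟩ : Φ₁)) q =
        (QuotientGroup.mk ((⟨g, hg⟩ : Φ₁) * q.out) : Φ₁ ⧸ Φ.subgroupOf Φ₁) := by
      rw [MulAction.toPerm_apply]
      conv_lhs => rw [← QuotientGroup.out_eq' q]
      rfl
    rw [h2]
    have h3 := QuotientGroup.mk_out_eq_mul (Φ.subgroupOf Φ₁) ((⟨g, hg⟩ : Φ₁) * q.out)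
    obtain ⟨u, hu⟩ := h3
    rw [hu]
    have h4 : ((u : Φ₁) : Γ) ∈ Φ := u.2
    have : (g * (q.out : Γ))⁻¹ * (((⟨g, hg⟩ : Φ₁) * q.out * (u : Φ₁) : Φ₁) : Γ) = ((u : Φ₁) : Γ) := by
      simp only [Subgroup.coe_mul]
      group
    rw [this]
    exact h4
  calc av T Φ Φ₁ x * T g = (T g * av T Φ Φ₁ x * T g⁻¹) * T g := by rw [key]
    _ = T g * av T Φ Φ₁ x * (T g⁻¹ * T g) := by simp only [mul_assoc]
    _ = T g * av T Φ Φ₁ x := by rw [← map_mul, inv_mul_cancel, map_one, mul_one]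

theorem av_comm_of {T : Γ →* (ℋ →L[ℂ] ℋ)} {Φ Φ₁ : Subgroup Γ} [Fintype (Φ₁ ⧸ Φ.subgroupOf Φ₁)]
    {a : ℋ →L[ℂ] ℋ} (ha : ∀ g, a * T g = T g * a) (hx : x * a = a * x) :
    av T Φ Φ₁ x * a = a * av T Φ Φ₁ x := by
  unfold av
  rw [Finset.mul_sum, Finset.sum_mul]
  refine Finset.sum_congr rfl fun q _ => ?_
  have h1 : T (q.out : Γ) * x * T (q.out : Γ)⁻¹ * a = T (q.out : Γ) * (x * a) * T (q.out : Γ)⁻¹ := by
    rw [mul_assoc, ← ha]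
    simp only [mul_assoc]
  have h2 : a * (T (q.out : Γ) * x * T (q.out : Γ)⁻¹) =
      T (q.out : Γ) * (a * x) * T (q.out : Γ)⁻¹ := by
    have : a * (T (q.out : Γ) * x * T (q.out : Γ)⁻¹) = (a * T (q.out : Γ)) * x * T (q.out : Γ)⁻¹ := by
      simp only [mul_assoc]
    rw [this, ha]
    simp only [mul_assoc]
  rw [h1, h2, hx]

theorem conj_nonneg {T : Γ →* (ℋ →L[ℂ] ℋ)} (hT : ∀ g, adjoint (T g) = T g⁻¹) (hx : 0 ≤ x) (g : Γ) :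
    0 ≤ T g * x * T g⁻¹ := by
  rw [nonneg_iff_isPositive] at hx ⊢
  have := hx.conj_adjoint (T g)
  rw [hT] at this
  exact this

theorem av_nonneg {T : Γ →* (ℋ →L[ℂ] ℋ)} {Φ Φ₁ : Subgroup Γ} [Fintype (Φ₁ ⧸ Φ.subgroupOf Φ₁)]
    (hT : ∀ g, adjoint (T g) = T g⁻¹) (hx : 0 ≤ x) : 0 ≤ av T Φ Φ₁ x :=
  Finset.sum_nonneg fun q _ => conj_nonneg hT hx _

theorem av_ne {T : Γ →* (ℋ →L[ℂ] ℋ)} {Φ Φ₁ : Subgroup Γ} [Fintype (Φ₁ ⧸ Φ.subgroupOf Φ₁)]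
    (hT : ∀ g, adjoint (T g) = T g⁻¹) (hx : 0 ≤ x) (h : x ≠ 0) : av T Φ Φ₁ x ≠ 0 := by
  intro h0
  apply h
  have h1 := (Finset.sum_eq_zero_iff_of_nonneg
    (fun q _ => conj_nonneg hT hx ((q : Φ₁ ⧸ Φ.subgroupOf Φ₁).out : Γ))).1 h0
  have h2 := h1 (QuotientGroup.mk 1) (Finset.mem_univ _)
  set g : Γ := (((QuotientGroup.mk (1 : Φ₁) : Φ₁ ⧸ Φ.subgroupOf Φ₁).out : Φ₁) : Γ)
  calc x = T g⁻¹ * (T g * x * T g⁻¹) * T g := by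
        have : T g⁻¹ * (T g * x * T g⁻¹) * T g = (T g⁻¹ * T g) * x * (T g⁻¹ * T g) := by
          simp only [mul_assoc]
        rw [this, ← map_mul, inv_mul_cancel, map_one, one_mul, mul_one]
    _ = 0 := by rw [h2, mul_zero, zero_mul]

/-- the quadratic form of a translate -/
theorem form_eq {T : Γ →* (ℋ →L[ℂ] ℋ)} (hT : ∀ g, adjoint (T g) = T g⁻¹) (y : ℋ →L[ℂ] ℋ) (g : Γ)
    (ζ : ℋ) : ⟪T g⁻¹ ζ, y (T g⁻¹ ζ)⟫_ℂ = ⟪ζ, (T g * y * T g⁻¹) ζ⟫_ℂ := by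
  have h : T g⁻¹ = adjoint (T g) := (hT g).symm
  rw [ContinuousLinearMap.mul_apply, ContinuousLinearMap.mul_apply]
  rw [h, adjoint_inner_left]

theorem form_indep {T : Γ →* (ℋ →L[ℂ] ℋ)} (hT : ∀ g, adjoint (T g) = T g⁻¹) {Φ : Subgroup Γ}
    (hx : ∀ g ∈ Φ, x * T g = T g * x) {a b : Γ} (h : a⁻¹ * b ∈ Φ) (ζ : ℋ) :
    ⟪T a⁻¹ ζ, x (T a⁻¹ ζ)⟫_ℂ = ⟪T b⁻¹ ζ, x (T b⁻¹ ζ)⟫_ℂ := by
  rw [form_eq hT, form_eq hT, conj_indep hx h]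

/-- summation by stages -/
theorem hasSum_av {T : Γ →* (ℋ →L[ℂ] ℋ)} {Φ Φ₁ : Subgroup Γ} [Fintype (Φ₁ ⧸ Φ.subgroupOf Φ₁)]
    (hT : ∀ g, adjoint (T g) = T g⁻¹) (hle : Φ ≤ Φ₁) (hx : ∀ g ∈ Φ, x * T g = T g * x) (ζ : ℋ)
    {c : ℝ} (h : HasSum (fun q : Γ ⧸ Φ => (⟪T (q.out)⁻¹ ζ, x (T (q.out)⁻¹ ζ)⟫_ℂ).re) c) :
    HasSum (fun q : Γ ⧸ Φ₁ => (⟪T (q.out)⁻¹ ζ, av T Φ Φ₁ x (T (q.out)⁻¹ ζ)⟫_ℂ).re) c := by
  have h1 := (Subgroup.quotientEquivProdOfLE hle).symm.hasSum_iff.2 h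
  refine h1.prod_fiberwise fun b => ?_
  have h2 : (⟪T (b.out)⁻¹ ζ, av T Φ Φ₁ x (T (b.out)⁻¹ ζ)⟫_ℂ).re =
      ∑ q : Φ₁ ⧸ Φ.subgroupOf Φ₁, ((fun q : Γ ⧸ Φ => (⟪T (q.out)⁻¹ ζ, x (T (q.out)⁻¹ ζ)⟫_ℂ).re) ∘
        (Subgroup.quotientEquivProdOfLE hle).symm) (b, q) := by
    unfold av
    rw [ContinuousLinearMap.sum_apply, inner_sum, Complex.re_sum]
    refine Finset.sum_congr rfl fun q _ => ?_
    rw [Function.comp_apply]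
    have h3 : (Subgroup.quotientEquivProdOfLE hle).symm (b, q) =
        (QuotientGroup.mk (b.out * (q.out : Γ)) : Γ ⧸ Φ) := by
      conv_lhs => rw [← QuotientGroup.out_eq' q]
      rfl
    rw [h3]
    have h4 := QuotientGroup.mk_out_eq_mul Φ (b.out * (q.out : Γ))
    obtain ⟨u, hu⟩ := h4
    have h5 : (b.out * (q.out : Γ))⁻¹ *
        ((QuotientGroup.mk (b.out * (q.out : Γ)) : Γ ⧸ Φ).out) ∈ Φ := by
      rw [hu, ← mul_assoc, inv_mul_cancel, one_mul]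
      exact u.2
    rw [← form_indep hT hx h5, mul_inv_rev, map_mul]
    exact (congrArg Complex.re (form_eq hT x (q.out : Γ) (T (b.out)⁻¹ ζ))).symm
  rw [h2]
  exact hasSum_fintype _

end av

section pass

variable {Γ H : Type} [Group Γ] [Group H]

/-- the index of `pr⁻¹(K)` in `pr⁻¹(K Z)` is finite -/
theorem finite_quot (pr : Γ →* H) (K Z : Subgroup H) [Z.Normal] [Finite Z] :
    Finite (((K.map (QuotientGroup.mk' Z)).comap ((QuotientGroup.mk' Z).comp pr)) ⧸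
      (K.comap pr).subgroupOf ((K.map (QuotientGroup.mk' Z)).comap
        ((QuotientGroup.mk' Z).comp pr))) := by
  have h1 : ∀ g : ((K.map (QuotientGroup.mk' Z)).comap ((QuotientGroup.mk' Z).comp pr)),
      ∃ z : Z, (z : H)⁻¹ * pr g ∈ K := by
    rintro ⟨g, k, hk, hg⟩
    have h2 : k⁻¹ * pr g ∈ Z := by
      have : (QuotientGroup.mk k : H ⧸ Z) = QuotientGroup.mk (pr g) := hg
      rwa [QuotientGroup.eq] at this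
    have h3 : pr g * k⁻¹ ∈ Z := by
      have := (inferInstance : Z.Normal).conj_mem _ h2 k
      have e : k * (k⁻¹ * pr g) * k⁻¹ = pr g * k⁻¹ := by group
      rwa [e] at this
    refine ⟨⟨pr g * k⁻¹, h3⟩, ?_⟩
    have e : (pr g * k⁻¹)⁻¹ * pr g = k := by group
    change (pr g * k⁻¹)⁻¹ * pr g ∈ K
    rw [e]
    exact hk
  choose z hz using h1
  refine Finite.of_injective (fun q => z q.out) fun a b hab => ?_
  rw [← QuotientGroup.out_eq' a, ← QuotientGroup.out_eq' b, QuotientGroup.eq]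
  change pr ((((a.out)⁻¹ * b.out : _) : Γ)) ∈ K
  have ha := hz a.out
  have hb := hz b.out
  have hab' : z a.out = z b.out := hab
  rw [hab'] at ha
  have h3 := K.mul_mem (K.inv_mem ha) hb
  have e : ((((z b.out : Z) : H)⁻¹ * pr (a.out : Γ))⁻¹ * (((z b.out : Z) : H)⁻¹ * pr (b.out : Γ))) =
      (pr (a.out : Γ))⁻¹ * pr (b.out : Γ) := by group
  rw [e, ← map_inv, ← map_mul] at h3
  exact h3

theorem comap_le (pr : Γ →* H) (K Z : Subgroup H) [Z.Normal] :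
    K.comap pr ≤ (K.map (QuotientGroup.mk' Z)).comap ((QuotientGroup.mk' Z).comp pr) := by
  intro g hg
  exact ⟨pr g, hg, rfl⟩

theorem cos_map [TopologicalSpace H] [IsTopologicalGroup H] {K : Subgroup H} (hK : COS K)
    (Z : Subgroup H) [Z.Normal] : COS (K.map (QuotientGroup.mk' Z)) := by
  refine ⟨?_, ?_⟩
  · exact hK.1.image QuotientGroup.continuous_mk
  · exact QuotientGroup.isOpenMap_coe _ hK.2

end pass

theorem passStmt : SR.PassStmt := by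
  intro Γ H H' ℋ _ _ _ _ _ _ _ _ _ _ pr pr' S T sc Z Z' _ _ _ _ hS hT hST hscS hscT hF
  obtain ⟨K', K, hK', hK, x, ⟨hx1, hx2, hx3⟩, hx0, hxne, c, hc⟩ := hF
  set Θ := K'.comap pr
  set Θ₁ := (K'.map (QuotientGroup.mk' Z)).comap ((QuotientGroup.mk' Z).comp pr)
  set Φ := K.comap pr'
  set Φ₁ := (K.map (QuotientGroup.mk' Z')).comap ((QuotientGroup.mk' Z').comp pr')
  have hf1 : Finite (Θ₁ ⧸ Θ.subgroupOf Θ₁) := finite_quot pr K' Z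
  have hf2 : Finite (Φ₁ ⧸ Φ.subgroupOf Φ₁) := finite_quot pr' K Z'
  have _ := Fintype.ofFinite (Θ₁ ⧸ Θ.subgroupOf Θ₁)
  have _ := Fintype.ofFinite (Φ₁ ⧸ Φ.subgroupOf Φ₁)
  have hx1' : ∀ g ∈ Θ, x * S g = S g * x := hx1
  have hx2' : ∀ g ∈ Φ, x * T g = T g * x := hx2
  set y := av S Θ Θ₁ x with hy
  have hy1 : ∀ g ∈ Θ₁, y * S g = S g * y := av_comm hx1'
  have hy2 : ∀ g ∈ Φ, y * T g = T g * y := fun g hg =>
    av_comm_of (fun h => (hST h g).symm) (hx2' g hg)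
  have hy3 : ∀ a ∈ sc, y * a = a * y := fun a ha => av_comm_of (hscS a ha) (hx3 a ha)
  set w := av T Φ Φ₁ y with hw
  refine ⟨K'.map (QuotientGroup.mk' Z), K.map (QuotientGroup.mk' Z'), cos_map hK' Z,
    cos_map hK Z', w, ⟨?_, ?_, ?_⟩, av_nonneg hT (av_nonneg hS hx0),
    av_ne hT (av_nonneg hS hx0) (av_ne hS hx0 hxne),
    (Fintype.card (Θ₁ ⧸ Θ.subgroupOf Θ₁) : ℝ) * c, ?_⟩
  · intro g hg
    exact av_comm_of (fun h => hST g h) (hy1 g hg)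
  · intro g hg
    exact av_comm hy2 g hg
  · intro a ha
    exact av_comm_of (hscT a ha) (hy3 a ha)
  · intro ζ
    refine hasSum_av hT (comap_le pr' K Z') hy2 ζ ?_
    have h1 : ∀ s : Θ₁ ⧸ Θ.subgroupOf Θ₁, HasSum (fun q : Γ ⧸ Φ =>
        (⟪T (q.out)⁻¹ ζ, (S (s.out : Γ) * x * S (s.out : Γ)⁻¹) (T (q.out)⁻¹ ζ)⟫_ℂ).re)
        (c * ‖ζ‖ ^ 2) := by
      intro s
      have h2 := hc (S (s.out : Γ)⁻¹ ζ)
      have h3 : ‖S (s.out : Γ)⁻¹ ζ‖ = ‖ζ‖ := by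
        have h4 : ‖S (s.out : Γ)⁻¹ ζ‖ ^ 2 = ‖ζ‖ ^ 2 := by
          have h5 : ⟪S (s.out : Γ)⁻¹ ζ, (1 : ℋ →L[ℂ] ℋ) (S (s.out : Γ)⁻¹ ζ)⟫_ℂ = ⟪ζ, ζ⟫_ℂ := by
            rw [form_eq hS, mul_one, ← map_mul, mul_inv_cancel, map_one]
            rfl
          have h6 : ⟪S (s.out : Γ)⁻¹ ζ, S (s.out : Γ)⁻¹ ζ⟫_ℂ = ⟪ζ, ζ⟫_ℂ := h5
          rw [inner_self_eq_norm_sq_to_K, inner_self_eq_norm_sq_to_K] at h6
          exact_mod_cast h6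
        exact (sq_eq_sq₀ (norm_nonneg _) (norm_nonneg _)).1 h4
      rw [h3] at h2
      have h7 : ∀ q : Γ ⧸ Φ, (⟪T (q.out)⁻¹ (S (s.out : Γ)⁻¹ ζ), x (T (q.out)⁻¹
          (S (s.out : Γ)⁻¹ ζ))⟫_ℂ).re =
          (⟪T (q.out)⁻¹ ζ, (S (s.out : Γ) * x * S (s.out : Γ)⁻¹) (T (q.out)⁻¹ ζ)⟫_ℂ).re := by
        intro q
        rw [← form_eq hS]
        have h8 : T (q.out)⁻¹ (S (s.out : Γ)⁻¹ ζ) = S (s.out : Γ)⁻¹ (T (q.out)⁻¹ ζ) := by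
          have := congrArg (fun A : ℋ →L[ℂ] ℋ => A ζ) (hST (s.out : Γ)⁻¹ (q.out)⁻¹)
          exact this.symm
        rw [h8]
      exact (funext h7) ▸ h2
    have h2 := hasSum_sum (s := Finset.univ) fun s _ => h1 s
    have h3 : ∀ q : Γ ⧸ Φ, ∑ s : Θ₁ ⧸ Θ.subgroupOf Θ₁,
        (⟪T (q.out)⁻¹ ζ, (S (s.out : Γ) * x * S (s.out : Γ)⁻¹) (T (q.out)⁻¹ ζ)⟫_ℂ).re =
        (⟪T (q.out)⁻¹ ζ, y (T (q.out)⁻¹ ζ)⟫_ℂ).re := by
      intro q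
      rw [hy, av, ContinuousLinearMap.sum_apply, inner_sum, Complex.re_sum]
    have h4 : ∑ s : Θ₁ ⧸ Θ.subgroupOf Θ₁, c * ‖ζ‖ ^ 2 =
        (Fintype.card (Θ₁ ⧸ Θ.subgroupOf Θ₁) : ℝ) * c * ‖ζ‖ ^ 2 := by
      rw [Finset.sum_const, Finset.card_univ, nsmul_eq_mul, mul_assoc]
    rw [h4] at h2
    exact (funext h3) ▸ h2

end Vale.Agent.P092.H113
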