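import Mathlib

/-!
P092 (helper113), TEAM W: the abstract step 'adjacent chambers commute ⟹ all chambers commute'.
Part 1: Borel calculi.
-/

set_option linter.all false

open MeasureTheory Filter Topology ContinuousLinearMap Set
open scoped InnerProductSpace ENNReal

namespace Vale.Agent.P092.H113.W

variable {K : Type*} [NormedAddCommGroup K] [InnerProductSpace ℂ K] [CompleteSpace K]

/-- bounded measurable real functions -/
def Bm {X : Type*} [MeasurableSpace X] (f : X → ℝ) : Prop := Measurable f ∧ ∃ C, ∀ x, |f x| ≤ C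

namespace Bm

variable {X : Type*} [MeasurableSpace X] {f g : X → ℝ}

theorem add (hf : Bm f) (hg : Bm g) : Bm (fun x => f x + g x) := by
  obtain ⟨C, hC⟩ := hf.2
  obtain ⟨D, hD⟩ := hg.2
  exact ⟨hf.1.add hg.1, C + D, fun x => (abs_add_le _ _).trans (add_le_add (hC x) (hD x))⟩

theorem smul (c : ℝ) (hf : Bm f) : Bm (fun x => c * f x) := by
  obtain ⟨C, hC⟩ := hf.2
  refine ⟨hf.1.const_mul c, |c| * C, fun x => ?_⟩
  rw [abs_mul]
  exact mul_le_mul_of_nonneg_left (hC x) (abs_nonneg c)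

theorem sub (hf : Bm f) (hg : Bm g) : Bm (fun x => f x - g x) := by
  have h := hf.add (hg.smul (-1))
  have e : (fun x => f x + -1 * g x) = fun x => f x - g x := by funext x; ring
  rwa [e] at h

theorem mul (hf : Bm f) (hg : Bm g) : Bm (fun x => f x * g x) := by
  obtain ⟨C, hC⟩ := hf.2
  obtain ⟨D, hD⟩ := hg.2
  refine ⟨hf.1.mul hg.1, C * D, fun x => ?_⟩
  rw [abs_mul]
  exact mul_le_mul (hC x) (hD x) (abs_nonneg _) ((abs_nonneg _).trans (hC x))

theorem const (c : ℝ) : Bm (fun _ : X => c) := ⟨measurable_const, |c|, fun _ => le_rfl⟩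

theorem of_icc (hf : Measurable f) (h : ∀ x, f x ∈ Icc (0 : ℝ) 1) : Bm f :=
  ⟨hf, 1, fun x => by rw [abs_of_nonneg (h x).1]; exact (h x).2⟩

theorem ind {A : Set X} (hA : MeasurableSet A) : Bm (A.indicator fun _ => (1 : ℝ)) :=
  of_icc (measurable_const.indicator hA) fun x => by
    by_cases hx : x ∈ A <;> simp [hx]

theorem comp {Y : Type*} [MeasurableSpace Y] {φ : Y → X} (hf : Bm f) (hφ : Measurable φ) :
    Bm (fun y => f (φ y)) := ⟨hf.1.comp hφ, hf.2.imp fun _ h y => h _⟩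

end Bm

/-- A Borel calculus with its spectral measures. -/
structure Bc {X : Type*} [MeasurableSpace X] (J : (X → ℝ) → (K →L[ℂ] K)) (μ : K → Measure X) :
    Prop where
  one : J (fun _ => 1) = 1
  add : ∀ f g, Bm f → Bm g → J (fun x => f x + g x) = J f + J g
  smul : ∀ (c : ℝ) f, Bm f → J (fun x => c * f x) = (c : ℂ) • J f
  mul : ∀ f g, Bm f → Bm g → J (fun x => f x * g x) = J f * J g
  adj : ∀ f, Bm f → adjoint (J f) = J f
  univ : ∀ ξ, μ ξ Set.univ = ‖ξ‖ₑ ^ 2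
  nrm : ∀ f, Bm f → ∀ ξ, ‖J f ξ‖ₑ ^ 2 = ∫⁻ x, ‖f x‖ₑ ^ 2 ∂(μ ξ)

namespace Bc

variable {X : Type*} [MeasurableSpace X] {J : (X → ℝ) → (K →L[ℂ] K)} {μ : K → Measure X}

theorem fin (h : Bc J μ) (ξ : K) : IsFiniteMeasure (μ ξ) :=
  ⟨by rw [h.univ]; exact ENNReal.pow_lt_top enorm_lt_top⟩

theorem sub (h : Bc J μ) {f g : X → ℝ} (hf : Bm f) (hg : Bm g) :
    J (fun x => f x - g x) = J f - J g := by
  have e : (fun x => f x + -1 * g x) = fun x => f x - g x := by funext x; ring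
  rw [← e, h.add f _ hf (hg.smul (-1)), h.smul _ _ hg]
  push_cast
  rw [neg_one_smul, sub_eq_add_neg]

theorem comm (h : Bc J μ) {f g : X → ℝ} (hf : Bm f) (hg : Bm g) : J f * J g = J g * J f := by
  rw [← h.mul f g hf hg, ← h.mul g f hg hf]
  exact congrArg J (funext fun x => mul_comm _ _)

theorem zero (h : Bc J μ) : J (fun _ => 0) = 0 := by
  have e := h.smul 0 (fun _ => 1) (Bm.const 1)
  simp only [zero_mul] at e
  rw [e]
  simp

theorem nrm_le (h : Bc J μ) {f : X → ℝ} (hf : Bm f) (h1 : ∀ x, |f x| ≤ 1) (ξ : K) :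
    ‖J f ξ‖ ≤ ‖ξ‖ := by
  have e : ‖J f ξ‖ₑ ^ 2 ≤ ‖ξ‖ₑ ^ 2 := by
    rw [h.nrm f hf, ← h.univ ξ, ← setLIntegral_one, Measure.restrict_univ]
    refine lintegral_mono fun x => ?_
    have : ‖f x‖ₑ ≤ 1 := by
      rw [← ofReal_norm_eq_enorm, Real.norm_eq_abs]
      exact ENNReal.ofReal_le_one.2 (h1 x)
    calc ‖f x‖ₑ ^ 2 ≤ 1 ^ 2 := pow_le_pow_left' this 2
      _ = 1 := one_pow 2
  have e2 : ‖J f ξ‖ₑ ≤ ‖ξ‖ₑ := by
    rwa [ENNReal.pow_le_pow_left_iff (by norm_num)] at e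
  rw [← ofReal_norm_eq_enorm, ← ofReal_norm_eq_enorm,
    ENNReal.ofReal_le_ofReal_iff (norm_nonneg _)] at e2
  exact e2

/-- bounded pointwise convergence implies strong convergence -/
theorem lim (h : Bc J μ) {f : ℕ → X → ℝ} {g : X → ℝ} {C : ℝ} (hf : ∀ k, Measurable (f k))
    (hfC : ∀ k x, |f k x| ≤ C) (hg : ∀ x, Tendsto (fun k => f k x) atTop (𝓝 (g x))) (ξ : K) :
    Tendsto (fun k => J (f k) ξ) atTop (𝓝 (J g ξ)) := by
  have hgm : Measurable g := measurable_of_tendsto_metrizable hf (tendsto_pi_nhds.2 hg)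
  have hgC : ∀ x, |g x| ≤ C := fun x =>
    le_of_tendsto ((hg x).abs) (Eventually.of_forall fun k => hfC k x)
  have hB : Bm g := ⟨hgm, C, hgC⟩
  have hBf : ∀ k, Bm (f k) := fun k => ⟨hf k, C, hfC k⟩
  haveI := h.fin ξ
  have key : Tendsto (fun k => ∫⁻ x, ‖f k x - g x‖ₑ ^ 2 ∂(μ ξ)) atTop (𝓝 0) := by
    have h0 : ∫⁻ x, (0 : ℝ≥0∞) ∂(μ ξ) = 0 := by simp
    rw [← h0]
    refine tendsto_lintegral_of_dominated_convergence (fun _ => (ENNReal.ofReal (C + C)) ^ 2)
      (fun k => (((hf k).sub hgm).enorm.pow_const 2)) (fun k => Eventually.of_forall fun x => ?_)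
      ?_ (Eventually.of_forall fun x => ?_)
    · refine pow_le_pow_left' ?_ 2
      rw [← ofReal_norm_eq_enorm]
      refine ENNReal.ofReal_le_ofReal ?_
      rw [Real.norm_eq_abs]
      calc |f k x - g x| ≤ |f k x| + |g x| := abs_sub _ _
        _ ≤ C + C := add_le_add (hfC k x) (hgC x)
    · rw [lintegral_const]
      exact (ENNReal.mul_lt_top (ENNReal.pow_lt_top ENNReal.ofReal_lt_top)
        (measure_lt_top _ _)).ne
    · have e1 : Tendsto (fun k => f k x - g x) atTop (𝓝 0) := by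
        have := (hg x).sub_const (g x)
        rwa [sub_self] at this
      have e2 := ENNReal.Tendsto.pow (n := 2) e1.enorm
      simpa using e2
  rw [tendsto_iff_norm_sub_tendsto_zero]
  have e3 : ∀ k, ‖J (f k) ξ - J g ξ‖ₑ ^ 2 = ∫⁻ x, ‖f k x - g x‖ₑ ^ 2 ∂(μ ξ) := fun k => by
    rw [← h.nrm _ ((hBf k).sub hB), h.sub (hBf k) hB]
    rfl
  have e4 : Tendsto (fun k => ‖J (f k) ξ - J g ξ‖ₑ ^ 2) atTop (𝓝 0) := by
    simp_rw [e3]; exact key
  have e5 : Tendsto (fun k => ‖J (f k) ξ - J g ξ‖ ^ 2) atTop (𝓝 0) := by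
    have := (ENNReal.tendsto_toReal ENNReal.zero_ne_top).comp e4
    simpa [Function.comp_def, ENNReal.toReal_pow] using this
  have e6 := e5.sqrt
  simpa [Real.sqrt_sq (norm_nonneg _)] using e6

theorem ind_mul (h : Bc J μ) {A B : Set X} (hA : MeasurableSet A) (hB : MeasurableSet B) :
    J ((A ∩ B).indicator fun _ => 1) = J (A.indicator fun _ => 1) * J (B.indicator fun _ => 1) := by
  rw [← h.mul _ _ (Bm.ind hA) (Bm.ind hB)]
  refine congrArg J (funext fun x => ?_)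
  by_cases h1 : x ∈ A <;> by_cases h2 : x ∈ B <;> simp [h1, h2]

theorem ind_compl (h : Bc J μ) {A : Set X} (hA : MeasurableSet A) :
    J (Aᶜ.indicator fun _ => 1) = 1 - J (A.indicator fun _ => 1) := by
  rw [← h.one, ← h.sub (Bm.const 1) (Bm.ind hA)]
  refine congrArg J (funext fun x => ?_)
  by_cases h1 : x ∈ A <;> simp [h1]

end Bc

end Vale.Agent.P092.H113.W
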