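import Vale.Agent.P092.H113.W1

/-!
P092 (helper113), TEAM W, part 2: the positive operator `∫ D(y)* D(y) dy`.
-/

set_option linter.all false

open MeasureTheory Filter Topology ContinuousLinearMap Set
open scoped InnerProductSpace ENNReal

namespace Vale.Agent.P092.H113.W

variable {K : Type*} [NormedAddCommGroup K] [InnerProductSpace ℂ K] [CompleteSpace K]

section S

variable {Y : Type*} [TopologicalSpace Y] [MeasurableSpace Y] [OpensMeasurableSpace Y]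
  [SecondCountableTopology Y]

theorem memLp_of {M : Measure Y} {u : Y → K} (hu : Continuous u)
    (hf : ∫⁻ y, ‖u y‖ₑ ^ 2 ∂M < ∞) : MemLp u 2 M := by
  refine ⟨hu.aestronglyMeasurable, ?_⟩
  have e := eLpNorm_nnreal_pow_eq_lintegral (μ := M) (f := u) (p := 2) two_ne_zero
  have e2 : ∫⁻ y, ‖u y‖ₑ ^ (((2 : NNReal) : ℝ)) ∂M = ∫⁻ y, ‖u y‖ₑ ^ 2 ∂M := by
    refine lintegral_congr fun y => ?_
    rw [NNReal.coe_ofNat, ENNReal.rpow_ofNat]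
  rw [e2, NNReal.coe_ofNat, ENNReal.rpow_ofNat] at e
  have e3 : eLpNorm u 2 M ^ 2 < ∞ := by
    have : ((2 : NNReal) : ℝ≥0∞) = 2 := by norm_num
    rw [this] at e
    rw [e]; exact hf
  exact (ENNReal.pow_lt_top_iff.1 e3).resolve_right (by norm_num)

theorem norm_toLp_sq {M : Measure Y} {u : Y → K} (h : MemLp u 2 M) :
    ‖h.toLp u‖ ^ 2 = (∫⁻ y, ‖u y‖ₑ ^ 2 ∂M).toReal := by
  have e := eLpNorm_nnreal_pow_eq_lintegral (μ := M) (f := u) (p := 2) two_ne_zero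
  have e2 : ∫⁻ y, ‖u y‖ₑ ^ (((2 : NNReal) : ℝ)) ∂M = ∫⁻ y, ‖u y‖ₑ ^ 2 ∂M := by
    refine lintegral_congr fun y => ?_
    rw [NNReal.coe_ofNat, ENNReal.rpow_ofNat]
  rw [e2, NNReal.coe_ofNat, ENNReal.rpow_ofNat] at e
  have : ((2 : NNReal) : ℝ≥0∞) = 2 := by norm_num
  rw [this] at e
  rw [Lp.norm_toLp, ← e, ENNReal.toReal_pow]

theorem exists_S (M : Measure Y) (D : Y → (K →L[ℂ] K)) (hD : ∀ ξ, Continuous fun y => D y ξ)
    {A : ℝ≥0∞} (hA : A ≠ ∞) (hb : ∀ ξ, ∫⁻ y, ‖D y ξ‖ₑ ^ 2 ∂M ≤ A * ‖ξ‖ₑ ^ 2) :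
    ∃ S : K →L[ℂ] K, (∀ ξ, ⟪ξ, S ξ⟫_ℂ = (((∫⁻ y, ‖D y ξ‖ₑ ^ 2 ∂M).toReal : ℝ) : ℂ)) ∧
      (∀ ξ, ∫⁻ y, ‖D y ξ‖ₑ ^ 2 ∂M = 0 → S ξ = 0) ∧
      ∀ T : K →L[ℂ] K, (∀ y, T * D y = D y * T) → (∀ y, adjoint T * D y = D y * adjoint T) →
        T * S = S * T := by
  have hfin : ∀ ξ, ∫⁻ y, ‖D y ξ‖ₑ ^ 2 ∂M < ∞ := fun ξ =>
    (hb ξ).trans_lt (ENNReal.mul_lt_top hA.lt_top (ENNReal.pow_lt_top enorm_lt_top))
  have hm : ∀ ξ, MemLp (fun y => D y ξ) 2 M := fun ξ => memLp_of (hD ξ) (hfin ξ)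
  let V₀ : K →ₗ[ℂ] Lp K 2 M :=
    { toFun := fun ξ => (hm ξ).toLp (fun y => D y ξ)
      map_add' := fun ξ η => by
        rw [← MemLp.toLp_add]
        exact MemLp.toLp_congr _ _ (Eventually.of_forall fun y => map_add (D y) ξ η)
      map_smul' := fun c ξ => by
        rw [RingHom.id_apply, ← MemLp.toLp_const_smul]
        exact MemLp.toLp_congr _ _ (Eventually.of_forall fun y => map_smul (D y) c ξ) }
  have hV₀ : ∀ ξ, ‖V₀ ξ‖ ^ 2 = (∫⁻ y, ‖D y ξ‖ₑ ^ 2 ∂M).toReal := fun ξ => norm_toLp_sq (hm ξ)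
  have hbd : ∀ ξ, ‖V₀ ξ‖ ≤ Real.sqrt A.toReal * ‖ξ‖ := fun ξ => by
    refine le_of_sq_le_sq ?_ (by positivity)
    rw [hV₀, mul_pow, Real.sq_sqrt ENNReal.toReal_nonneg]
    have h1 := ENNReal.toReal_mono
      (ENNReal.mul_lt_top hA.lt_top (ENNReal.pow_lt_top enorm_lt_top)).ne (hb ξ)
    rw [ENNReal.toReal_mul, ENNReal.toReal_pow, toReal_enorm] at h1
    exact h1
  let V : K →L[ℂ] Lp K 2 M := V₀.mkContinuous _ hbd
  have hV : ∀ ξ, V ξ = (hm ξ).toLp (fun y => D y ξ) := fun ξ => rfl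
  have hin : ∀ ξ η, ⟪ξ, (adjoint V ∘L V) η⟫_ℂ = ∫ y, ⟪D y ξ, D y η⟫_ℂ ∂M := fun ξ η => by
    rw [ContinuousLinearMap.comp_apply, ContinuousLinearMap.adjoint_inner_right, L2.inner_def]
    refine integral_congr_ae ?_
    filter_upwards [(hm ξ).coeFn_toLp, (hm η).coeFn_toLp] with y h1 h2
    rw [hV, hV, h1, h2]
  refine ⟨adjoint V ∘L V, fun ξ => ?_, fun ξ h0 => ?_, fun T hT hT' => ?_⟩
  · rw [ContinuousLinearMap.comp_apply, ContinuousLinearMap.adjoint_inner_right,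
      inner_self_eq_norm_sq_to_K, ← hV₀ ξ]
    push_cast
    rfl
  · have e1 : ‖V ξ‖ ^ 2 = 0 := by
      have := hV₀ ξ
      rw [h0, ENNReal.toReal_zero] at this
      exact this
    have e2 : V ξ = 0 := norm_eq_zero.1 (pow_eq_zero_iff (two_ne_zero)|>.1 e1)
    rw [ContinuousLinearMap.comp_apply, e2, map_zero]
  · refine ContinuousLinearMap.ext fun η => ext_inner_left ℂ fun ξ => ?_
    have e1 : ⟪ξ, (T * (adjoint V ∘L V)) η⟫_ℂ = ⟪adjoint T ξ, (adjoint V ∘L V) η⟫_ℂ := by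
      rw [ContinuousLinearMap.adjoint_inner_left]; rfl
    have e2 : ⟪ξ, ((adjoint V ∘L V) * T) η⟫_ℂ = ⟪ξ, (adjoint V ∘L V) (T η)⟫_ℂ := rfl
    rw [e1, e2, hin, hin]
    refine integral_congr_ae (Eventually.of_forall fun y => ?_)
    have e3 : D y (adjoint T ξ) = adjoint T (D y ξ) := by
      have := congrArg (fun A : K →L[ℂ] K => A ξ) (hT' y)
      exact this.symm
    have e4 : D y (T η) = T (D y η) := by
      have := congrArg (fun A : K →L[ℂ] K => A η) (hT y)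
      exact this.symm
    show ⟪D y (adjoint T ξ), D y η⟫_ℂ = ⟪D y ξ, D y (T η)⟫_ℂ
    rw [e3, e4, ContinuousLinearMap.adjoint_inner_left]

/-- operators with the same quadratic form are equal -/
theorem eq_of_quad {A B : K →L[ℂ] K} (h : ∀ ξ, ⟪ξ, A ξ⟫_ℂ = ⟪ξ, B ξ⟫_ℂ) : A = B := by
  have h1 : ∀ ξ, ⟪(A - B) ξ, ξ⟫_ℂ = 0 := fun ξ => by
    rw [ContinuousLinearMap.sub_apply, inner_sub_left, ← inner_conj_symm, ← inner_conj_symm (B ξ),
      h ξ, sub_self]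
  have h2 : ((A - B : K →L[ℂ] K) : K →ₗ[ℂ] K) = 0 := by
    rw [← inner_map_self_eq_zero]
    exact h1
  refine ContinuousLinearMap.ext fun ξ => ?_
  have := congrArg (fun T : K →ₗ[ℂ] K => T ξ) h2
  simpa [sub_eq_zero] using this

end S

end Vale.Agent.P092.H113.W
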