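import Vale.Agent.P092.H113.W2

/-!
P092 (helper113), TEAM W, part 3: the energy `Q`.
-/

set_option linter.all false

open MeasureTheory Filter Topology ContinuousLinearMap Set
open scoped InnerProductSpace ENNReal

namespace Vale.Agent.P092.H113.W

variable {K : Type*} [NormedAddCommGroup K] [InnerProductSpace ℂ K] [CompleteSpace K]

/-- continuous functions with values in `[0, 1]` -/
def C01 {P : Type*} [TopologicalSpace P] (f : P → ℝ) : Prop :=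
  Continuous f ∧ ∀ x, f x ∈ Icc (0 : ℝ) 1

theorem C01.abs_le {P : Type*} [TopologicalSpace P] {f : P → ℝ} (h : C01 f) (x : P) :
    |f x| ≤ 1 := by rw [abs_of_nonneg (h.2 x).1]; exact (h.2 x).2

/-- the complementary function -/
noncomputable def cm {P : Type*} (f : P → ℝ) : P → ℝ := fun x => Real.sqrt (1 - f x ^ 2)

theorem C01.cm {P : Type*} [TopologicalSpace P] {f : P → ℝ} (h : C01 f) : C01 (cm f) := by
  refine ⟨?_, fun x => ⟨Real.sqrt_nonneg _, ?_⟩⟩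
  · exact (continuous_const.sub (h.1.pow 2)).sqrt
  · show Real.sqrt (1 - f x ^ 2) ≤ 1
    rw [Real.sqrt_le_one]
    nlinarith [sq_nonneg (f x)]

theorem sq_add_cm {P : Type*} [TopologicalSpace P] {f : P → ℝ} (h : C01 f) (x : P) :
    ‖f x‖ₑ ^ 2 + ‖cm f x‖ₑ ^ 2 = 1 := by
  have h0 := (h.2 x).1
  have h1 := (h.2 x).2
  rw [← ofReal_norm_eq_enorm, ← ofReal_norm_eq_enorm, ← ENNReal.ofReal_pow (norm_nonneg _),
    ← ENNReal.ofReal_pow (norm_nonneg _), ← ENNReal.ofReal_add (by positivity) (by positivity),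
    Real.norm_eq_abs, Real.norm_eq_abs, sq_abs, sq_abs]
  have : cm f x ^ 2 = 1 - f x ^ 2 := Real.sq_sqrt (by nlinarith)
  rw [this]
  norm_num

/-- `q ↦ f (y θ(q))` -/
def fn {X P : Type*} [Mul P] (θ : X → P) (f : P → ℝ) (y : P) : X → ℝ := fun q => f (y * θ q)

theorem tend3 {A B C : ℕ → K →L[ℂ] K} {A₀ B₀ C₀ : K →L[ℂ] K} (hA : ∀ k η, ‖A k η‖ ≤ ‖η‖)
    (hB : ∀ k η, ‖B k η‖ ≤ ‖η‖) (tA : ∀ η, Tendsto (fun k => A k η) atTop (𝓝 (A₀ η)))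
    (tB : ∀ η, Tendsto (fun k => B k η) atTop (𝓝 (B₀ η)))
    (tC : ∀ η, Tendsto (fun k => C k η) atTop (𝓝 (C₀ η))) (ξ : K) :
    Tendsto (fun k => (A k * B k * C k) ξ) atTop (𝓝 ((A₀ * B₀ * C₀) ξ)) := by
  have h2 : ∀ {T S : ℕ → K →L[ℂ] K} {T₀ S₀ : K →L[ℂ] K} (hT : ∀ k η, ‖T k η‖ ≤ ‖η‖)
      (tT : ∀ η, Tendsto (fun k => T k η) atTop (𝓝 (T₀ η))) (η : K)
      (tS : Tendsto (fun k => S k η) atTop (𝓝 (S₀ η))),
      Tendsto (fun k => T k (S k η)) atTop (𝓝 (T₀ (S₀ η))) := by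
    intro T S T₀ S₀ hT tT η tS
    rw [tendsto_iff_norm_sub_tendsto_zero] at tS ⊢
    have t1 := (tendsto_iff_norm_sub_tendsto_zero.1 (tT (S₀ η)))
    have t2 := tS.add t1
    rw [add_zero] at t2
    refine squeeze_zero (fun _ => norm_nonneg _) (fun k => ?_) t2
    calc ‖T k (S k η) - T₀ (S₀ η)‖ = ‖T k (S k η - S₀ η) + (T k (S₀ η) - T₀ (S₀ η))‖ := by
          rw [map_sub]; congr 1; abel
      _ ≤ ‖T k (S k η - S₀ η)‖ + ‖T k (S₀ η) - T₀ (S₀ η)‖ := norm_add_le _ _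
      _ ≤ ‖S k η - S₀ η‖ + ‖T k (S₀ η) - T₀ (S₀ η)‖ := add_le_add (hT _ _) le_rfl
  have t3 : ∀ η, Tendsto (fun k => (B k * C k) η) atTop (𝓝 ((B₀ * C₀) η)) :=
    fun η => h2 (T := B) (S := C) hB tB η (tC η)
  have t4 := h2 (T := A) (S := fun k => B k * C k) (S₀ := B₀ * C₀) hA tA ξ (t3 ξ)
  exact t4

section Q

variable {X X' P P' : Type*} [MeasurableSpace X] [MeasurableSpace X']
  [Group P] [TopologicalSpace P] [IsTopologicalGroup P] [SecondCountableTopology P]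
  [MeasurableSpace P] [BorelSpace P]
  [Group P'] [TopologicalSpace P'] [IsTopologicalGroup P'] [SecondCountableTopology P']
  [MeasurableSpace P'] [BorelSpace P']
  {J : (X → ℝ) → (K →L[ℂ] K)} {μ : K → Measure X}
  {J' : (X' → ℝ) → (K →L[ℂ] K)} {μ' : K → Measure X'}

theorem fn_meas {θ : X → P} (hθ : Measurable θ) {f : P → ℝ} (hf : C01 f) (y : P) :
    Measurable (fn θ f y) := hf.1.measurable.comp (hθ.const_mul y)

theorem fn_bm {θ : X → P} (hθ : Measurable θ) {f : P → ℝ} (hf : C01 f) (y : P) :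
    Bm (fn θ f y) := ⟨fn_meas hθ hf y, 1, fun x => hf.abs_le _⟩

/-- joint sequential continuity -/
theorem fn_tendsto (h : Bc J μ) {θ : ℕ → X → P} {θ₀ : X → P} (hθ : ∀ k, Measurable (θ k))
    (ht : ∀ x, Tendsto (fun k => θ k x) atTop (𝓝 (θ₀ x))) {f : P → ℝ} (hf : C01 f) {y : ℕ → P}
    {y₀ : P} (hy : Tendsto y atTop (𝓝 y₀)) (ξ : K) :
    Tendsto (fun k => J (fn (θ k) f (y k)) ξ) atTop (𝓝 (J (fn θ₀ f y₀) ξ)) :=
  h.lim (C := 1) (fun k => fn_meas (hθ k) hf _) (fun k x => hf.abs_le _)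
    (fun x => (hf.1.tendsto _).comp (hy.mul (ht x))) ξ

theorem fn_cont (h : Bc J μ) {θ : X → P} (hθ : Measurable θ) {f : P → ℝ} (hf : C01 f) (ξ : K) :
    Continuous fun y => J (fn θ f y) ξ := by
  refine SeqContinuous.continuous fun y y₀ hy => ?_
  exact fn_tendsto h (fun _ => hθ) (fun _ => tendsto_const_nhds) hf hy ξ

/-- `f(yg) f'(y'g') h(yg)` -/
def DD (J : (X → ℝ) → (K →L[ℂ] K)) (J' : (X' → ℝ) → (K →L[ℂ] K)) (θ : X → P) (θ' : X' → P')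
    (f : P → ℝ) (f' : P' → ℝ) (h : P → ℝ) (p : P × P') : K →L[ℂ] K :=
  J (fn θ f p.1) * J' (fn θ' f' p.2) * J (fn θ h p.1)

theorem DD_tendsto (hJ : Bc J μ) (hJ' : Bc J' μ') {θ : ℕ → X → P} {θ₀ : X → P}
    (hθ : ∀ k, Measurable (θ k)) (ht : ∀ x, Tendsto (fun k => θ k x) atTop (𝓝 (θ₀ x)))
    {θ' : ℕ → X' → P'} {θ₀' : X' → P'} (hθ' : ∀ k, Measurable (θ' k))
    (ht' : ∀ x, Tendsto (fun k => θ' k x) atTop (𝓝 (θ₀' x)))
    {f h : P → ℝ} {f' : P' → ℝ} (hf : C01 f) (hh : C01 h) (hf' : C01 f') {p : ℕ → P × P'}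
    {p₀ : P × P'} (hp : Tendsto p atTop (𝓝 p₀)) (ξ : K) :
    Tendsto (fun k => DD J J' (θ k) (θ' k) f f' h (p k) ξ) atTop
      (𝓝 (DD J J' θ₀ θ₀' f f' h p₀ ξ)) := by
  have h1 : Tendsto (fun k => (p k).1) atTop (𝓝 p₀.1) := (continuous_fst.tendsto _).comp hp
  have h2 : Tendsto (fun k => (p k).2) atTop (𝓝 p₀.2) := (continuous_snd.tendsto _).comp hp
  exact tend3 (fun k η => hJ.nrm_le (fn_bm (hθ k) hf _) (fun x => hf.abs_le _) η)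
    (fun k η => hJ'.nrm_le (fn_bm (hθ' k) hf' _) (fun x => hf'.abs_le _) η)
    (fun η => fn_tendsto hJ hθ ht hf h1 η) (fun η => fn_tendsto hJ' hθ' ht' hf' h2 η)
    (fun η => fn_tendsto hJ hθ ht hh h1 η) ξ

theorem DD_cont (hJ : Bc J μ) (hJ' : Bc J' μ') {θ : X → P} (hθ : Measurable θ)
    {θ' : X' → P'} (hθ' : Measurable θ') {f h : P → ℝ} {f' : P' → ℝ} (hf : C01 f) (hh : C01 h)
    (hf' : C01 f') (ξ : K) : Continuous fun p => DD J J' θ θ' f f' h p ξ := by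
  refine SeqContinuous.continuous fun p p₀ hp => ?_
  exact DD_tendsto hJ hJ' (fun _ => hθ) (fun _ => tendsto_const_nhds) (fun _ => hθ')
    (fun _ => tendsto_const_nhds) hf hh hf' hp ξ

variable (m : Measure P) [m.IsMulRightInvariant] [SFinite m]
  (m' : Measure P') [m'.IsMulRightInvariant] [SFinite m']

theorem tot (hJ : Bc J μ) {θ : X → P} (hθ : Measurable θ) {f : P → ℝ} (hf : C01 f) (ξ : K) :
    ∫⁻ y, ‖J (fn θ f y) ξ‖ₑ ^ 2 ∂m = (∫⁻ y, ‖f y‖ₑ ^ 2 ∂m) * ‖ξ‖ₑ ^ 2 := by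
  haveI := hJ.fin ξ
  have e1 : ∀ y, ‖J (fn θ f y) ξ‖ₑ ^ 2 = ∫⁻ q, ‖f (y * θ q)‖ₑ ^ 2 ∂(μ ξ) := fun y =>
    hJ.nrm _ (fn_bm hθ hf y) ξ
  have hmeas : Measurable fun p : P × X => ‖f (p.1 * θ p.2)‖ₑ ^ 2 :=
    ((hf.1.measurable.comp (measurable_fst.mul (hθ.comp measurable_snd))).enorm.pow_const 2)
  calc ∫⁻ y, ‖J (fn θ f y) ξ‖ₑ ^ 2 ∂m = ∫⁻ y, ∫⁻ q, ‖f (y * θ q)‖ₑ ^ 2 ∂(μ ξ) ∂m :=
        lintegral_congr e1
    _ = ∫⁻ q, ∫⁻ y, ‖f (y * θ q)‖ₑ ^ 2 ∂m ∂(μ ξ) :=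
        lintegral_lintegral_swap hmeas.aemeasurable
    _ = ∫⁻ q, (∫⁻ y, ‖f y‖ₑ ^ 2 ∂m) ∂(μ ξ) := by
        refine lintegral_congr fun q => ?_
        exact lintegral_mul_right_eq_self (fun y => ‖f y‖ₑ ^ 2) (θ q)
    _ = (∫⁻ y, ‖f y‖ₑ ^ 2 ∂m) * ‖ξ‖ₑ ^ 2 := by rw [lintegral_const, hJ.univ]

/-- the energy -/
noncomputable def Qe (J : (X → ℝ) → (K →L[ℂ] K)) (J' : (X' → ℝ) → (K →L[ℂ] K)) (θ : X → P)
    (θ' : X' → P') (f : P → ℝ) (f' : P' → ℝ) (h : P → ℝ) (ξ : K) : ℝ≥0∞ :=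
  ∫⁻ p, ‖DD J J' θ θ' f f' h p ξ‖ₑ ^ 2 ∂(m.prod m')

theorem tot2 (hJ : Bc J μ) (hJ' : Bc J' μ') {θ : X → P} (hθ : Measurable θ)
    {θ' : X' → P'} (hθ' : Measurable θ') {h : P → ℝ} {f' : P' → ℝ} (hh : C01 h)
    (hf' : C01 f') (ξ : K) :
    ∫⁻ p : P × P', ‖J' (fn θ' f' p.2) (J (fn θ h p.1) ξ)‖ₑ ^ 2 ∂(m.prod m') =
      (∫⁻ y, ‖f' y‖ₑ ^ 2 ∂m') * ((∫⁻ y, ‖h y‖ₑ ^ 2 ∂m) * ‖ξ‖ₑ ^ 2) := by
  have hc : Continuous fun p : P × P' => J' (fn θ' f' p.2) (J (fn θ h p.1) ξ) := by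
    have h1 := DD_cont hJ hJ' hθ hθ' (f := fun _ => 1) ⟨continuous_const, fun _ => by simp⟩ hh
      hf' ξ
    have e : (fun p : P × P' => DD J J' θ θ' (fun _ => 1) f' h p ξ) =
        fun p => J' (fn θ' f' p.2) (J (fn θ h p.1) ξ) := by
      funext p
      have e0 : J (fn θ (fun _ => (1 : ℝ)) p.1) = 1 := hJ.one
      simp only [DD, e0, one_mul]
      rfl
    rwa [e] at h1
  rw [lintegral_prod _ (hc.enorm.measurable.pow_const 2).aemeasurable]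
  calc ∫⁻ y, ∫⁻ y', ‖J' (fn θ' f' y') (J (fn θ h y) ξ)‖ₑ ^ 2 ∂m' ∂m =
      ∫⁻ y, (∫⁻ y, ‖f' y‖ₑ ^ 2 ∂m') * ‖J (fn θ h y) ξ‖ₑ ^ 2 ∂m :=
        lintegral_congr fun y => tot m' hJ' hθ' hf' _
    _ = _ := by
        rw [lintegral_const_mul _ ((fn_cont hJ hθ hh ξ).enorm.measurable.pow_const 2),
          tot m hJ hθ hh]

theorem Qe_le (hJ : Bc J μ) (hJ' : Bc J' μ') {θ : X → P} (hθ : Measurable θ)
    {θ' : X' → P'} (hθ' : Measurable θ') {f h : P → ℝ} {f' : P' → ℝ} (hf : C01 f) (hh : C01 h)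
    (hf' : C01 f') (ξ : K) : Qe m m' J J' θ θ' f f' h ξ ≤
      ((∫⁻ y, ‖f' y‖ₑ ^ 2 ∂m') * (∫⁻ y, ‖h y‖ₑ ^ 2 ∂m)) * ‖ξ‖ₑ ^ 2 := by
  rw [mul_assoc, ← tot2 m m' hJ hJ' hθ hθ' hh hf' ξ]
  refine lintegral_mono fun p => pow_le_pow_left' ?_ 2
  rw [← ofReal_norm_eq_enorm, ← ofReal_norm_eq_enorm]
  exact ENNReal.ofReal_le_ofReal (hJ.nrm_le (fn_bm hθ hf _) (fun x => hf.abs_le _) _)

theorem Qe_compl (hJ : Bc J μ) (hJ' : Bc J' μ') {θ : X → P} (hθ : Measurable θ)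
    {θ' : X' → P'} (hθ' : Measurable θ') {f h : P → ℝ} {f' : P' → ℝ} (hf : C01 f) (hh : C01 h)
    (hf' : C01 f') (ξ : K) : Qe m m' J J' θ θ' f f' h ξ + Qe m m' J J' θ θ' (cm f) f' h ξ =
      (∫⁻ y, ‖f' y‖ₑ ^ 2 ∂m') * ((∫⁻ y, ‖h y‖ₑ ^ 2 ∂m) * ‖ξ‖ₑ ^ 2) := by
  rw [← tot2 m m' hJ hJ' hθ hθ' hh hf' ξ, Qe, Qe, ← lintegral_add_left]
  · refine lintegral_congr fun p => ?_
    set η := J' (fn θ' f' p.2) (J (fn θ h p.1) ξ) with hη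
    have e1 : ‖DD J J' θ θ' f f' h p ξ‖ₑ ^ 2 = ∫⁻ q, ‖fn θ f p.1 q‖ₑ ^ 2 ∂(μ η) :=
      hJ.nrm _ (fn_bm hθ hf _) η
    have e2 : ‖DD J J' θ θ' (cm f) f' h p ξ‖ₑ ^ 2 = ∫⁻ q, ‖fn θ (cm f) p.1 q‖ₑ ^ 2 ∂(μ η) :=
      hJ.nrm _ (fn_bm hθ hf.cm _) η
    rw [e1, e2, ← lintegral_add_left ((fn_meas hθ hf _).enorm.pow_const 2)]
    have e3 : ∀ q, ‖fn θ f p.1 q‖ₑ ^ 2 + ‖fn θ (cm f) p.1 q‖ₑ ^ 2 = 1 := fun q =>
      sq_add_cm hf _
    simp_rw [e3]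
    rw [lintegral_one, hJ.univ]
  · exact (DD_cont hJ hJ' hθ hθ' hf hh hf' ξ).enorm.measurable.pow_const 2

/-- **Fatou** -/
theorem Qe_fatou (hJ : Bc J μ) (hJ' : Bc J' μ') {θ : ℕ → X → P} {θ₀ : X → P}
    (hθ : ∀ k, Measurable (θ k)) (ht : ∀ x, Tendsto (fun k => θ k x) atTop (𝓝 (θ₀ x)))
    {θ' : ℕ → X' → P'} {θ₀' : X' → P'} (hθ' : ∀ k, Measurable (θ' k))
    (ht' : ∀ x, Tendsto (fun k => θ' k x) atTop (𝓝 (θ₀' x)))
    {f h : P → ℝ} {f' : P' → ℝ} (hf : C01 f) (hh : C01 h) (hf' : C01 f') (ξ : K) {C : ℝ≥0∞}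
    (hC : ∀ k, Qe m m' J J' (θ k) (θ' k) f f' h ξ ≤ C) :
    Qe m m' J J' θ₀ θ₀' f f' h ξ ≤ C := by
  have h1 : ∀ p, Tendsto (fun k => ‖DD J J' (θ k) (θ' k) f f' h p ξ‖ₑ ^ 2) atTop
      (𝓝 (‖DD J J' θ₀ θ₀' f f' h p ξ‖ₑ ^ 2)) := fun p =>
    ENNReal.Tendsto.pow (DD_tendsto hJ hJ' hθ ht hθ' ht' hf hh hf'
      (tendsto_const_nhds (x := p)) ξ).enorm
  calc Qe m m' J J' θ₀ θ₀' f f' h ξ =
      ∫⁻ p, liminf (fun k => ‖DD J J' (θ k) (θ' k) f f' h p ξ‖ₑ ^ 2) atTop ∂(m.prod m') :=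
        lintegral_congr fun p => (h1 p).liminf_eq.symm
    _ ≤ liminf (fun k => ∫⁻ p, ‖DD J J' (θ k) (θ' k) f f' h p ξ‖ₑ ^ 2 ∂(m.prod m')) atTop :=
        lintegral_liminf_le fun k =>
          (DD_cont hJ hJ' (hθ k) (hθ' k) hf hh hf' ξ).enorm.measurable.pow_const 2
    _ ≤ C := by
        refine liminf_le_of_le ?_ fun b hb => ?_
        · isBoundedDefault
        · obtain ⟨k, hk⟩ := hb.exists
          exact hk.trans (hC k)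

/-- translation by constants on the left -/
theorem Qe_left (θ : X → P) (θ' : X' → P') (f h : P → ℝ) (f' : P' → ℝ) (c : P) (c' : P')
    (ξ : K) : Qe m m' J J' (fun q => c * θ q) (fun q => c' * θ' q) f f' h ξ =
      Qe m m' J J' θ θ' f f' h ξ := by
  have e1 : ∀ (u : P → ℝ) (y : P), fn (fun q => c * θ q) u y = fn θ u (y * c) := fun u y => by
    funext q
    simp only [fn, mul_assoc]
  have e2 : ∀ (u : P' → ℝ) (y : P'), fn (fun q => c' * θ' q) u y = fn θ' u (y * c') :=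
    fun u y => by
      funext q
      simp only [fn, mul_assoc]
  have e : ∀ p : P × P', DD J J' (fun q => c * θ q) (fun q => c' * θ' q) f f' h p =
      DD J J' θ θ' f f' h (p * (c, c')) := fun p => by
    rw [DD, DD, e1, e1, e2]
    rfl
  simp only [Qe, e]
  exact lintegral_mul_right_eq_self (μ := m.prod m')
    (fun p => ‖DD J J' θ θ' f f' h p ξ‖ₑ ^ 2) (c, c')

/-- conjugation by a unitary -/
theorem Qe_conj {U : K →L[ℂ] K} (hU : ∀ ξ, ‖U ξ‖ = ‖ξ‖) {V : K →L[ℂ] K} (hVU : V * U = 1)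
    {τ : X → X} {τ' : X' → X'} (hτ : Measurable τ) (hτ' : Measurable τ')
    (hc : ∀ F, Bm F → U * J F * V = J (fun q => F (τ q)))
    (hc' : ∀ F, Bm F → U * J' F * V = J' (fun q => F (τ' q)))
    {θ : X → P} (hθ : Measurable θ)
    {θ' : X' → P'} (hθ' : Measurable θ') {f h : P → ℝ} {f' : P' → ℝ} (hf : C01 f) (hh : C01 h)
    (hf' : C01 f') (ξ : K) : Qe m m' J J' θ θ' f f' h (V ξ) =
      Qe m m' J J' (fun q => θ (τ q)) (fun q => θ' (τ' q)) f f' h ξ := by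
  refine lintegral_congr fun p => ?_
  have e1 : DD J J' (fun q => θ (τ q)) (fun q => θ' (τ' q)) f f' h p =
      U * DD J J' θ θ' f f' h p * V := by
    have a1 : J (fn (fun q => θ (τ q)) f p.1) = U * J (fn θ f p.1) * V :=
      (hc _ (fn_bm hθ hf _)).symm
    have a2 : J (fn (fun q => θ (τ q)) h p.1) = U * J (fn θ h p.1) * V :=
      (hc _ (fn_bm hθ hh _)).symm
    have a3 : J' (fn (fun q => θ' (τ' q)) f' p.2) = U * J' (fn θ' f' p.2) * V :=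
      (hc' _ (fn_bm hθ' hf' _)).symm
    rw [DD, a1, a2, a3, DD]
    calc U * J (fn θ f p.1) * V * (U * J' (fn θ' f' p.2) * V) * (U * J (fn θ h p.1) * V) =
        U * J (fn θ f p.1) * (V * U) * J' (fn θ' f' p.2) * (V * U) * J (fn θ h p.1) * V := by
          simp only [mul_assoc]
      _ = _ := by rw [hVU]; simp only [mul_assoc, mul_one, one_mul]
  rw [e1]
  have e2 : ‖(U * DD J J' θ θ' f f' h p * V) ξ‖ = ‖DD J J' θ θ' f f' h p (V ξ)‖ := hU _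
  rw [← ofReal_norm_eq_enorm, ← ofReal_norm_eq_enorm, e2]

end Q

end Vale.Agent.P092.H113.W
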