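import Vale.Agent.P092.H113.W3

/-!
P092 (helper113), TEAM W, part 4: the energy does not see a change of frame.
-/

set_option linter.all false

open MeasureTheory Filter Topology ContinuousLinearMap Set
open scoped InnerProductSpace ENNReal

namespace Vale.Agent.P092.H113.W

variable {K : Type*} [NormedAddCommGroup K] [InnerProductSpace ℂ K] [CompleteSpace K]

/-- indicator of a set, as a real function -/
noncomputable def i1 {X : Type*} (A : Set X) : X → ℝ := A.indicator fun _ => 1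

theorem i1_bm {X : Type*} [MeasurableSpace X] {A : Set X} (hA : MeasurableSet A) : Bm (i1 A) :=
  Bm.ind hA

theorem move {E A B C A' B' C' : K →L[ℂ] K} (h1 : E * A = E * A') (h2 : E * B = E * B')
    (h3 : E * C = E * C') (c1 : E * A' = A' * E) (c2 : E * B' = B' * E) :
    E * (A * B * C) = E * (A' * B' * C') := by
  calc E * (A * B * C) = (E * A) * (B * C) := by simp only [mul_assoc]
    _ = A' * (E * B) * C := by rw [h1, c1]; simp only [mul_assoc]
    _ = A' * B' * (E * C) := by rw [h2, c2]; simp only [mul_assoc]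
    _ = A' * (B' * E) * C' := by rw [h3]; simp only [mul_assoc]
    _ = (A' * E) * B' * C' := by rw [← c2]; simp only [mul_assoc]
    _ = E * (A' * B' * C') := by rw [← c1]; simp only [mul_assoc]

section G

variable {Z P P' : Type*} [MeasurableSpace Z]
  [Group P] [TopologicalSpace P] [IsTopologicalGroup P] [SecondCountableTopology P]
  [MeasurableSpace P] [BorelSpace P] [T2Space P]
  [Group P'] [TopologicalSpace P'] [IsTopologicalGroup P'] [SecondCountableTopology P']
  [MeasurableSpace P'] [BorelSpace P'] [T2Space P']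
  {J : (Z × P → ℝ) → (K →L[ℂ] K)} {μ : K → Measure (Z × P)}
  {J' : (Z × P' → ℝ) → (K →L[ℂ] K)} {μ' : K → Measure (Z × P')}

theorem part_sum (hJ : Bc J μ) {R : Type*} (s : SimpleFunc Z R) (η : K) :
    ∑ c ∈ s.range, ‖J (i1 (Prod.fst ⁻¹' (s ⁻¹' {c}))) η‖ₑ ^ 2 = ‖η‖ₑ ^ 2 := by
  have e : ∀ c, ‖J (i1 (Prod.fst ⁻¹' (s ⁻¹' {c}))) η‖ₑ ^ 2 =
      ((μ η).map Prod.fst) (s ⁻¹' {c}) := fun c => by
    have hm : MeasurableSet (Prod.fst ⁻¹' (s ⁻¹' {c}) : Set (Z × P)) :=
      measurable_fst (s.measurableSet_fiber c)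
    rw [hJ.nrm _ (i1_bm hm), Measure.map_apply measurable_fst (s.measurableSet_fiber c)]
    rw [← lintegral_indicator_one hm]
    refine lintegral_congr fun q => ?_
    by_cases hq : q ∈ (Prod.fst ⁻¹' (s ⁻¹' {c}) : Set (Z × P))
    · simp [i1, hq]
    · simp [i1, hq]
  simp_rw [e]
  rw [SimpleFunc.sum_range_measure_preimage_singleton,
    Measure.map_apply measurable_fst MeasurableSet.univ, preimage_univ, hJ.univ]

variable (m : Measure P) [m.IsMulRightInvariant] [SFinite m]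
  (m' : Measure P') [m'.IsMulRightInvariant] [SFinite m']

theorem Qe_simple (hJ : Bc J μ) (hJ' : Bc J' μ')
    (hZ : ∀ A : Set Z, MeasurableSet A → J (i1 (Prod.fst ⁻¹' A)) = J' (i1 (Prod.fst ⁻¹' A)))
    {θ : Z × P → P} (hθ : Measurable θ)
    {θ' : Z × P' → P'} (hθ' : Measurable θ') {f h : P → ℝ} {f' : P' → ℝ} (hf : C01 f)
    (hh : C01 h) (hf' : C01 f') (s : SimpleFunc Z (P × P')) (ξ : K) :
    Qe m m' J J' (fun q => (s q.1).1 * θ q) (fun q => (s q.1).2 * θ' q) f f' h ξ =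
      Qe m m' J J' θ θ' f f' h ξ := by
  obtain ⟨E, hE⟩ : ∃ E : P × P' → (K →L[ℂ] K), E = fun c => J (i1 (Prod.fst ⁻¹' (s ⁻¹' {c}))) :=
    ⟨_, rfl⟩
  have hs1 : Measurable fun q : Z × P => (s q.1).1 * θ q :=
    (((s.measurable.comp measurable_fst).fst).mul hθ)
  have hs2 : Measurable fun q : Z × P' => (s q.1).2 * θ' q :=
    (((s.measurable.comp measurable_fst).snd).mul hθ')
  have hmf : ∀ c, MeasurableSet (Prod.fst ⁻¹' (s ⁻¹' {c}) : Set (Z × P)) := fun c =>
    measurable_fst (s.measurableSet_fiber c)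
  have hmf' : ∀ c, MeasurableSet (Prod.fst ⁻¹' (s ⁻¹' {c}) : Set (Z × P')) := fun c =>
    measurable_fst (s.measurableSet_fiber c)
  have hEJ : ∀ c, E c = J' (i1 (Prod.fst ⁻¹' (s ⁻¹' {c}))) := fun c => by
    rw [hE]; exact hZ _ (s.measurableSet_fiber c)
  have hcell : ∀ (c : P × P') (u : P → ℝ) (hu : C01 u) (y : P),
      E c * J (fn (fun q => (s q.1).1 * θ q) u y) = E c * J (fn θ u (y * c.1)) := by
    intro c u hu y
    rw [hE]
    show J (i1 (Prod.fst ⁻¹' (s ⁻¹' {c}))) * _ = J (i1 (Prod.fst ⁻¹' (s ⁻¹' {c}))) * _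
    rw [← hJ.mul _ _ (i1_bm (hmf c)) (fn_bm hs1 hu _), ← hJ.mul _ _ (i1_bm (hmf c)) (fn_bm hθ hu _)]
    refine congrArg J (funext fun q => ?_)
    by_cases hq : s q.1 = c
    · simp only [fn, hq, mul_assoc]
    · have : i1 (Prod.fst ⁻¹' (s ⁻¹' {c})) q = 0 := by
        simp [i1, hq]
      rw [this, zero_mul, zero_mul]
  have hcell' : ∀ (c : P × P') (u : P' → ℝ) (hu : C01 u) (y : P'),
      E c * J' (fn (fun q => (s q.1).2 * θ' q) u y) = E c * J' (fn θ' u (y * c.2)) := by
    intro c u hu y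
    rw [hEJ]
    rw [← hJ'.mul _ _ (i1_bm (hmf' c)) (fn_bm hs2 hu _),
      ← hJ'.mul _ _ (i1_bm (hmf' c)) (fn_bm hθ' hu _)]
    refine congrArg J' (funext fun q => ?_)
    by_cases hq : s q.1 = c
    · simp only [fn, hq, mul_assoc]
    · have : i1 (Prod.fst ⁻¹' (s ⁻¹' {c})) q = 0 := by
        simp [i1, hq]
      rw [this, zero_mul, zero_mul]
  have hmove : ∀ (c : P × P') (p : P × P'),
      E c * DD J J' (fun q => (s q.1).1 * θ q) (fun q => (s q.1).2 * θ' q) f f' h p =
        E c * DD J J' θ θ' f f' h (p * c) := by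
    intro c p
    refine move (hcell c f hf _) (hcell' c f' hf' _) (hcell c h hh _) ?_ ?_
    · rw [hE]; exact hJ.comm (i1_bm (hmf c)) (fn_bm hθ hf _)
    · rw [hEJ]; exact hJ'.comm (i1_bm (hmf' c)) (fn_bm hθ' hf' _)
  have hsum : ∀ η : K, ∑ c ∈ s.range, ‖E c η‖ₑ ^ 2 = ‖η‖ₑ ^ 2 := fun η => by
    rw [hE]; exact part_sum hJ s η
  have hcont : ∀ c, Continuous fun p : P × P' => (E c * DD J J' θ θ' f f' h p) ξ := fun c =>
    (E c).continuous.comp (DD_cont hJ hJ' hθ hθ' hf hh hf' ξ)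
  have hcont' : ∀ c : P × P', Continuous fun p : P × P' =>
      (E c * DD J J' θ θ' f f' h (p * c)) ξ := fun c =>
    (hcont c).comp (continuous_mul_const c)
  calc Qe m m' J J' (fun q => (s q.1).1 * θ q) (fun q => (s q.1).2 * θ' q) f f' h ξ =
      ∫⁻ p, ∑ c ∈ s.range, ‖(E c * DD J J' θ θ' f f' h (p * c)) ξ‖ₑ ^ 2 ∂(m.prod m') := by
        refine lintegral_congr fun p => ?_
        rw [← hsum]
        refine Finset.sum_congr rfl fun c _ => ?_
        rw [← hmove]
        rfl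
    _ = ∑ c ∈ s.range, ∫⁻ p, ‖(E c * DD J J' θ θ' f f' h (p * c)) ξ‖ₑ ^ 2 ∂(m.prod m') :=
        lintegral_finsetSum _ fun c _ => (hcont' c).enorm.measurable.pow_const 2
    _ = ∑ c ∈ s.range, ∫⁻ p, ‖(E c * DD J J' θ θ' f f' h p) ξ‖ₑ ^ 2 ∂(m.prod m') := by
        refine Finset.sum_congr rfl fun c _ => ?_
        exact lintegral_mul_right_eq_self (μ := m.prod m')
          (fun p => ‖(E c * DD J J' θ θ' f f' h p) ξ‖ₑ ^ 2) c
    _ = ∫⁻ p, ∑ c ∈ s.range, ‖(E c * DD J J' θ θ' f f' h p) ξ‖ₑ ^ 2 ∂(m.prod m') :=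
        (lintegral_finsetSum _ fun c _ => (hcont c).enorm.measurable.pow_const 2).symm
    _ = Qe m m' J J' θ θ' f f' h ξ := by
        refine lintegral_congr fun p => ?_
        rw [← hsum]
        rfl

/-- **a change of frame does not increase the energy** -/
theorem Qe_frame (hJ : Bc J μ) (hJ' : Bc J' μ')
    (hZ : ∀ A : Set Z, MeasurableSet A → J (i1 (Prod.fst ⁻¹' A)) = J' (i1 (Prod.fst ⁻¹' A)))
    {θ : Z × P → P} (hθ : Measurable θ)
    {θ' : Z × P' → P'} (hθ' : Measurable θ') {f h : P → ℝ} {f' : P' → ℝ} (hf : C01 f)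
    (hh : C01 h) (hf' : C01 f') {b : Z → P} (hb : Measurable b) {b' : Z → P'}
    (hb' : Measurable b') (ξ : K) :
    Qe m m' J J' (fun q => b q.1 * θ q) (fun q => b' q.1 * θ' q) f f' h ξ ≤
      Qe m m' J J' θ θ' f f' h ξ := by
  haveI : TopologicalSpace.MetrizableSpace P :=
    TopologicalSpace.metrizableSpace_of_t3_secondCountable P
  haveI : TopologicalSpace.MetrizableSpace P' :=
    TopologicalSpace.metrizableSpace_of_t3_secondCountable P'
  have hB : Measurable fun z => (b z, b' z) := hb.prodMk hb'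
  have hS : StronglyMeasurable fun z => (b z, b' z) := hB.stronglyMeasurable
  have ha : ∀ z, Tendsto (fun k => hS.approx k z) atTop (𝓝 (b z, b' z)) := fun z =>
    hS.tendsto_approx z
  refine Qe_fatou m m' hJ hJ' (θ := fun k q => ((hS.approx k) q.1).1 * θ q)
    (θ' := fun k q => ((hS.approx k) q.1).2 * θ' q) ?_ ?_ ?_ ?_ hf hh hf' ξ ?_
  · intro k
    exact (((hS.approx k).measurable.comp measurable_fst).fst).mul hθ
  · intro q
    exact (((continuous_fst.tendsto _).comp (ha q.1))).mul_const _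
  · intro k
    exact (((hS.approx k).measurable.comp measurable_fst).snd).mul hθ'
  · intro q
    exact (((continuous_snd.tendsto _).comp (ha q.1))).mul_const _
  · intro k
    exact (Qe_simple m m' hJ hJ' hZ hθ hθ' hf hh hf' (hS.approx k) ξ).le

end G

end Vale.Agent.P092.H113.W
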