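import Vale.Agent.P092.H113.W4

/-!
P092 (helper113), TEAM W, part 5: the set-up, trace invariance and contraction.
-/

set_option linter.all false

open MeasureTheory Filter Topology ContinuousLinearMap Set
open scoped InnerProductSpace ENNReal

namespace Vale.Agent.P092.H113.W

variable {K : Type*} [NormedAddCommGroup K] [InnerProductSpace ℂ K] [CompleteSpace K]

/-- The operators: `W` (coefficients), `lam`, `π`, the vector `Ω`. -/
structure Op {G Γ : Type*} [Group G] [Group Γ] (π : G →* (K →L[ℂ] K)) (lam : Γ →* (K →L[ℂ] K))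
    (W : Set (K →L[ℂ] K)) (Ω : K) : Prop where
  adjP : ∀ g, adjoint (π g) = π g⁻¹
  adjL : ∀ γ, adjoint (lam γ) = lam γ⁻¹
  Wadj : ∀ w ∈ W, adjoint w ∈ W
  /-- trace invariance -/
  tv : ∀ Y : K →L[ℂ] K, (∀ w ∈ W, Y * w = w * Y) → (∀ γ, Y * lam γ = lam γ * Y) →
    ∀ g, ⟪π g Ω, Y (π g Ω)⟫_ℂ = ⟪Ω, Y Ω⟫_ℂ
  /-- `Ω` is separating -/
  sep : ∀ Y : K →L[ℂ] K, (∀ w ∈ W, Y * w = w * Y) → (∀ γ, Y * lam γ = lam γ * Y) → Y Ω = 0 → Y = 0

theorem norm_unit {G : Type*} [Group G] {π : G →* (K →L[ℂ] K)}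
    (h : ∀ g, adjoint (π g) = π g⁻¹) (g : G) (ξ : K) : ‖π g ξ‖ = ‖ξ‖ := by
  have e : ⟪π g ξ, π g ξ⟫_ℂ = ⟪ξ, ξ⟫_ℂ := by
    rw [← ContinuousLinearMap.adjoint_inner_left, h]
    have : (π g⁻¹) ((π g) ξ) = ξ := by
      have e2 : π g⁻¹ * π g = 1 := by rw [← map_mul, inv_mul_cancel, map_one]
      exact congrArg (fun T : K →L[ℂ] K => T ξ) e2
    rw [this]
  rw [inner_self_eq_norm_sq_to_K, inner_self_eq_norm_sq_to_K] at e
  have e3 : ‖π g ξ‖ ^ 2 = ‖ξ‖ ^ 2 := by exact_mod_cast e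
  exact (sq_eq_sq₀ (norm_nonneg _) (norm_nonneg _)).1 e3

section G

variable {Z P P' : Type*} [MeasurableSpace Z]
  [Group P] [TopologicalSpace P] [IsTopologicalGroup P] [SecondCountableTopology P]
  [MeasurableSpace P] [BorelSpace P] [T2Space P]
  [Group P'] [TopologicalSpace P'] [IsTopologicalGroup P'] [SecondCountableTopology P']
  [MeasurableSpace P'] [BorelSpace P'] [T2Space P']
  {J : (Z × P → ℝ) → (K →L[ℂ] K)} {μ : K → Measure (Z × P)}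
  {J' : (Z × P' → ℝ) → (K →L[ℂ] K)} {μ' : K → Measure (Z × P')}
  {G Γ : Type*} [Group G] [Group Γ] {π : G →* (K →L[ℂ] K)} {lam : Γ →* (K →L[ℂ] K)}
  {W : Set (K →L[ℂ] K)} {Ω : K}

/-- The two calculi: same `z`, covariance under `lam`. -/
structure Pr (lam : Γ →* (K →L[ℂ] K)) (W : Set (K →L[ℂ] K))
    (J : (Z × P → ℝ) → (K →L[ℂ] K)) (μ : K → Measure (Z × P))
    (J' : (Z × P' → ℝ) → (K →L[ℂ] K)) (μ' : K → Measure (Z × P')) : Prop where
  hJ : Bc J μ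
  hJ' : Bc J' μ'
  hZ : ∀ A : Set Z, MeasurableSet A → J (i1 (Prod.fst ⁻¹' A)) = J' (i1 (Prod.fst ⁻¹' A))
  JW : ∀ F, Bm F → ∀ w ∈ W, w * J F = J F * w
  JW' : ∀ F, Bm F → ∀ w ∈ W, w * J' F = J' F * w
  cov : ∀ γ, ∃ (σ : Z → Z) (b : Z → P) (b' : Z → P'), Measurable σ ∧ Measurable b ∧
    Measurable b' ∧
    (∀ F, Bm F → lam γ⁻¹ * J F * lam γ = J (fun q => F (σ q.1, b q.1 * q.2))) ∧
    (∀ F, Bm F → lam γ⁻¹ * J' F * lam γ = J' (fun q => F (σ q.1, b' q.1 * q.2)))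

variable (m : Measure P) [m.IsMulRightInvariant] [SFinite m]
  (m' : Measure P') [m'.IsMulRightInvariant] [SFinite m']

variable {ρ : P →* P} {ρ' : P' →* P'} (hρ : Measurable ρ) (hρ' : Measurable ρ')
  {f h : P → ℝ} {f' : P' → ℝ} (hf : C01 f) (hh : C01 h) (hf' : C01 f')

include hρ hρ' hf hh hf'

theorem Qe_lam_le (hO : Op π lam W Ω) (hP : Pr lam W J μ J' μ') (γ : Γ) (ξ : K) :
    Qe m m' J J' (fun q => ρ q.2) (fun q => ρ' q.2) f f' h (lam γ ξ) ≤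
      Qe m m' J J' (fun q => ρ q.2) (fun q => ρ' q.2) f f' h ξ := by
  obtain ⟨σ, b, b', hσ, hb, hb', hc, hc'⟩ := hP.cov γ
  have hVU : lam γ * lam γ⁻¹ = 1 := by rw [← map_mul, mul_inv_cancel, map_one]
  have hθ : Measurable fun q : Z × P => ρ q.2 := hρ.comp measurable_snd
  have hθ' : Measurable fun q : Z × P' => ρ' q.2 := hρ'.comp measurable_snd
  rw [Qe_conj m m' (U := lam γ⁻¹) (norm_unit hO.adjL _) hVU
    (τ := fun q : Z × P => (σ q.1, b q.1 * q.2)) (τ' := fun q : Z × P' => (σ q.1, b' q.1 * q.2))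
    ((hσ.comp measurable_fst).prodMk ((hb.comp measurable_fst).mul measurable_snd))
    ((hσ.comp measurable_fst).prodMk ((hb'.comp measurable_fst).mul measurable_snd))
    hc hc' hθ hθ' hf hh hf' ξ]
  simp only [map_mul]
  exact Qe_frame m m' hP.hJ hP.hJ' hP.hZ hθ hθ' hf hh hf' (hρ.comp hb) (hρ'.comp hb') ξ

theorem Qe_lam (hO : Op π lam W Ω) (hP : Pr lam W J μ J' μ') (γ : Γ) (ξ : K) :
    Qe m m' J J' (fun q => ρ q.2) (fun q => ρ' q.2) f f' h (lam γ ξ) =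
      Qe m m' J J' (fun q => ρ q.2) (fun q => ρ' q.2) f f' h ξ := by
  refine le_antisymm (Qe_lam_le m m' hρ hρ' hf hh hf' hO hP γ ξ) ?_
  have h1 := Qe_lam_le m m' hρ hρ' hf hh hf' hO hP γ⁻¹ (lam γ ξ)
  have e : lam γ⁻¹ (lam γ ξ) = ξ := by
    have e2 : lam γ⁻¹ * lam γ = 1 := by rw [← map_mul, inv_mul_cancel, map_one]
    exact congrArg (fun T : K →L[ℂ] K => T ξ) e2
  rwa [e] at h1

/-- the operator of the energy -/
theorem exists_SM (hO : Op π lam W Ω) (hP : Pr lam W J μ J' μ')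
    (hhf : ∫⁻ y, ‖h y‖ₑ ^ 2 ∂m ≠ ∞) (hff : ∫⁻ y, ‖f' y‖ₑ ^ 2 ∂m' ≠ ∞) :
    ∃ S : K →L[ℂ] K, (∀ w ∈ W, S * w = w * S) ∧ (∀ γ, S * lam γ = lam γ * S) ∧
      (∀ ξ, ⟪ξ, S ξ⟫_ℂ =
        (((Qe m m' J J' (fun q => ρ q.2) (fun q => ρ' q.2) f f' h ξ).toReal : ℝ) : ℂ)) ∧
      (∀ ξ, Qe m m' J J' (fun q => ρ q.2) (fun q => ρ' q.2) f f' h ξ = 0 → S ξ = 0) := by
  have hθ : Measurable fun q : Z × P => ρ q.2 := hρ.comp measurable_snd
  have hθ' : Measurable fun q : Z × P' => ρ' q.2 := hρ'.comp measurable_snd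
  obtain ⟨S, h1, h2, h3⟩ := exists_S (m.prod m')
    (fun p : P × P' => DD J J' (fun q : Z × P => ρ q.2) (fun q : Z × P' => ρ' q.2) f f' h p)
    (fun ξ => DD_cont hP.hJ hP.hJ' hθ hθ' hf hh hf' ξ) (ENNReal.mul_ne_top hff hhf)
    (fun ξ => Qe_le m m' hP.hJ hP.hJ' hθ hθ' hf hh hf' ξ)
  have hDw : ∀ w ∈ W, ∀ p : P × P',
      w * DD J J' (fun q : Z × P => ρ q.2) (fun q : Z × P' => ρ' q.2) f f' h p =
        DD J J' (fun q : Z × P => ρ q.2) (fun q : Z × P' => ρ' q.2) f f' h p * w := by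
    intro w hw p
    have a1 := hP.JW _ (fn_bm hθ hf p.1) w hw
    have a2 := hP.JW' _ (fn_bm hθ' hf' p.2) w hw
    have a3 := hP.JW _ (fn_bm hθ hh p.1) w hw
    rw [DD]
    calc w * (J (fn (fun q : Z × P => ρ q.2) f p.1) * J' (fn (fun q : Z × P' => ρ' q.2) f' p.2) *
          J (fn (fun q : Z × P => ρ q.2) h p.1)) =
        (w * J (fn (fun q : Z × P => ρ q.2) f p.1)) *
          J' (fn (fun q : Z × P' => ρ' q.2) f' p.2) * J (fn (fun q : Z × P => ρ q.2) h p.1) := by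
          simp only [mul_assoc]
      _ = J (fn (fun q : Z × P => ρ q.2) f p.1) * (w *
          J' (fn (fun q : Z × P' => ρ' q.2) f' p.2)) * J (fn (fun q : Z × P => ρ q.2) h p.1) := by
          rw [a1]; simp only [mul_assoc]
      _ = J (fn (fun q : Z × P => ρ q.2) f p.1) *
          J' (fn (fun q : Z × P' => ρ' q.2) f' p.2) * (w * J (fn (fun q : Z × P => ρ q.2) h p.1)) := by
          rw [a2]; simp only [mul_assoc]
      _ = _ := by rw [a3]; simp only [mul_assoc]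
  refine ⟨S, fun w hw => ?_, fun γ => ?_, h1, h2⟩
  · exact (h3 w (hDw w hw) (hDw _ (hO.Wadj w hw))).symm
  · have e : lam γ⁻¹ * S * lam γ = S := by
      refine eq_of_quad fun ξ => ?_
      have e1 : ⟪ξ, (lam γ⁻¹ * S * lam γ) ξ⟫_ℂ = ⟪lam γ ξ, S (lam γ ξ)⟫_ℂ := by
        rw [← hO.adjL γ, ← ContinuousLinearMap.adjoint_inner_right]
        rfl
      rw [e1, h1, h1]
      show (((Qe m m' J J' (fun q => ρ q.2) (fun q => ρ' q.2) f f' h (lam γ ξ)).toReal : ℝ) : ℂ) =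
        (((Qe m m' J J' (fun q => ρ q.2) (fun q => ρ' q.2) f f' h ξ).toReal : ℝ) : ℂ)
      rw [Qe_lam m m' hρ hρ' hf hh hf' hO hP γ ξ]
    have e2 : lam γ * lam γ⁻¹ = 1 := by rw [← map_mul, mul_inv_cancel, map_one]
    calc S * lam γ = (lam γ * lam γ⁻¹) * S * lam γ := by rw [e2, one_mul]
      _ = lam γ * (lam γ⁻¹ * S * lam γ) := by simp only [mul_assoc]
      _ = lam γ * S := by rw [e]

/-- **trace invariance of the energy** -/
theorem Qe_tv (hO : Op π lam W Ω) (hP : Pr lam W J μ J' μ')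
    (hhf : ∫⁻ y, ‖h y‖ₑ ^ 2 ∂m ≠ ∞) (hff : ∫⁻ y, ‖f' y‖ₑ ^ 2 ∂m' ≠ ∞) (g : G) :
    Qe m m' J J' (fun q => ρ q.2) (fun q => ρ' q.2) f f' h (π g Ω) =
      Qe m m' J J' (fun q => ρ q.2) (fun q => ρ' q.2) f f' h Ω := by
  have hθ : Measurable fun q : Z × P => ρ q.2 := hρ.comp measurable_snd
  have hθ' : Measurable fun q : Z × P' => ρ' q.2 := hρ'.comp measurable_snd
  obtain ⟨S, h1, h2, h3, h4⟩ := exists_SM m m' hρ hρ' hf hh hf' hO hP hhf hff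
  have e := hO.tv S h1 h2 g
  rw [h3, h3] at e
  have e2 := Complex.ofReal_injective e
  have hfin : ∀ ξ : K, Qe m m' J J' (fun q => ρ q.2) (fun q => ρ' q.2) f f' h ξ ≠ ∞ := fun ξ =>
    ((Qe_le m m' hP.hJ hP.hJ' hθ hθ' hf hh hf' ξ).trans_lt
      (ENNReal.mul_lt_top (ENNReal.mul_ne_top hff hhf).lt_top
        (ENNReal.pow_lt_top enorm_lt_top))).ne
  exact (ENNReal.toReal_eq_toReal_iff' (hfin _) (hfin _)).1 e2

/-- **vanishing energy at `Ω`** -/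
theorem DD_zero [m.IsOpenPosMeasure] [m'.IsOpenPosMeasure] (hO : Op π lam W Ω)
    (hP : Pr lam W J μ J' μ')
    (hhf : ∫⁻ y, ‖h y‖ₑ ^ 2 ∂m ≠ ∞) (hff : ∫⁻ y, ‖f' y‖ₑ ^ 2 ∂m' ≠ ∞)
    (h0 : Qe m m' J J' (fun q => ρ q.2) (fun q => ρ' q.2) f f' h Ω = 0) (p : P × P') :
    DD J J' (fun q : Z × P => ρ q.2) (fun q : Z × P' => ρ' q.2) f f' h p = 0 := by
  have hθ : Measurable fun q : Z × P => ρ q.2 := hρ.comp measurable_snd
  have hθ' : Measurable fun q : Z × P' => ρ' q.2 := hρ'.comp measurable_snd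
  obtain ⟨S, h1, h2, h3, h4⟩ := exists_SM m m' hρ hρ' hf hh hf' hO hP hhf hff
  have hS : S = 0 := hO.sep S h1 h2 (h4 Ω h0)
  have hfin : ∀ ξ : K, Qe m m' J J' (fun q => ρ q.2) (fun q => ρ' q.2) f f' h ξ ≠ ∞ := fun ξ =>
    ((Qe_le m m' hP.hJ hP.hJ' hθ hθ' hf hh hf' ξ).trans_lt
      (ENNReal.mul_lt_top (ENNReal.mul_ne_top hff hhf).lt_top
        (ENNReal.pow_lt_top enorm_lt_top))).ne
  refine ContinuousLinearMap.ext fun ξ => ?_
  have e : Qe m m' J J' (fun q => ρ q.2) (fun q => ρ' q.2) f f' h ξ = 0 := by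
    have e1 := h3 ξ
    rw [hS] at e1
    simp only [ContinuousLinearMap.zero_apply, inner_zero_right] at e1
    have e2 : (Qe m m' J J' (fun q => ρ q.2) (fun q => ρ' q.2) f f' h ξ).toReal = 0 := by
      exact_mod_cast e1.symm
    exact ((ENNReal.toReal_eq_zero_iff _).1 e2).resolve_right (hfin ξ)
  have hc := DD_cont hP.hJ hP.hJ' hθ hθ' hf hh hf' ξ
  rw [Qe, lintegral_eq_zero_iff (hc.enorm.measurable.pow_const 2)] at e
  by_contra hne
  have hopen : IsOpen {p : P × P' | DD J J' (fun q : Z × P => ρ q.2)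
      (fun q : Z × P' => ρ' q.2) f f' h p ξ ≠ 0} := isOpen_ne_fun hc continuous_const
  have hpos : (m.prod m') {p : P × P' | DD J J' (fun q : Z × P => ρ q.2)
      (fun q : Z × P' => ρ' q.2) f f' h p ξ ≠ 0} ≠ 0 :=
    (hopen.measure_pos _ ⟨p, hne⟩).ne'
  refine hpos ?_
  have e3 : ∀ᵐ p ∂(m.prod m'), DD J J' (fun q : Z × P => ρ q.2)
      (fun q : Z × P' => ρ' q.2) f f' h p ξ = 0 := by
    filter_upwards [e] with p hp
    have : ‖DD J J' (fun q : Z × P => ρ q.2)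
      (fun q : Z × P' => ρ' q.2) f f' h p ξ‖ₑ ^ 2 = 0 := hp
    simpa using this
  exact (ae_iff.1 e3)

end G

end Vale.Agent.P092.H113.W
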