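import Vale.Agent.P092.H113.W5

/-!
P092 (helper113), TEAM W, part 6: contraction by the torus, translation by the root group, and
commutation at the Levi level.
-/

set_option linter.all false

open MeasureTheory Filter Topology ContinuousLinearMap Set
open scoped InnerProductSpace ENNReal Pointwise

namespace Vale.Agent.P092.H113.W

variable {K : Type*} [NormedAddCommGroup K] [InnerProductSpace ℂ K] [CompleteSpace K]

/-- compactly supported -/
structure CC {P : Type*} [TopologicalSpace P] (f : P → ℝ) : Prop where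
  c01 : C01 f
  cpt : HasCompactSupport f

theorem C01.mul {P : Type*} [TopologicalSpace P] {f g : P → ℝ} (hf : C01 f) (hg : C01 g) :
    C01 fun x => f x * g x :=
  ⟨hf.1.mul hg.1, fun x => ⟨mul_nonneg (hf.2 x).1 (hg.2 x).1,
    mul_le_one₀ (hf.2 x).2 (hg.2 x).1 (hg.2 x).2⟩⟩

theorem C01.comp {P R : Type*} [TopologicalSpace P] [TopologicalSpace R] {f : P → ℝ} (hf : C01 f)
    {c : R → P} (hc : Continuous c) : C01 fun x => f (c x) :=
  ⟨hf.1.comp hc, fun x => hf.2 _⟩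

theorem lint_lt {P : Type*} [TopologicalSpace P] [MeasurableSpace P] [OpensMeasurableSpace P]
    {m : Measure P} [IsFiniteMeasureOnCompacts m] {f : P → ℝ} (hf : C01 f) {L : Set P}
    (hL : IsCompact L) (hLc : IsClosed L) (h0 : ∀ x, x ∉ L → f x = 0) :
    ∫⁻ y, ‖f y‖ₑ ^ 2 ∂m ≠ ∞ := by
  have h1 : ∫⁻ y, ‖f y‖ₑ ^ 2 ∂m ≤ ∫⁻ y, L.indicator 1 y ∂m := by
    refine lintegral_mono fun y => ?_
    by_cases hy : y ∈ L
    · rw [indicator_of_mem hy]
      have : ‖f y‖ₑ ≤ 1 := by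
        rw [← ofReal_norm_eq_enorm, Real.norm_eq_abs]
        exact ENNReal.ofReal_le_one.2 (hf.abs_le y)
      calc ‖f y‖ₑ ^ 2 ≤ 1 ^ 2 := pow_le_pow_left' this 2
        _ = 1 := one_pow 2
    · rw [h0 y hy]; simp
  rw [lintegral_indicator_one hLc.measurableSet] at h1
  exact (h1.trans_lt hL.measure_lt_top).ne

section G

variable {Z P P' : Type*} [MeasurableSpace Z]
  [Group P] [TopologicalSpace P] [IsTopologicalGroup P] [SecondCountableTopology P]
  [MeasurableSpace P] [BorelSpace P] [T2Space P]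
  [Group P'] [TopologicalSpace P'] [IsTopologicalGroup P'] [SecondCountableTopology P']
  [MeasurableSpace P'] [BorelSpace P'] [T2Space P']
  {J : (Z × P → ℝ) → (K →L[ℂ] K)} {μ : K → Measure (Z × P)}
  {J' : (Z × P' → ℝ) → (K →L[ℂ] K)} {μ' : K → Measure (Z × P')}
  {G Γ : Type*} [Group G] [Group Γ] {π : G →* (K →L[ℂ] K)} {lam : Γ →* (K →L[ℂ] K)}
  {W : Set (K →L[ℂ] K)} {Ω : K}
  (m : Measure P) [m.IsMulRightInvariant] [SFinite m]
  (m' : Measure P') [m'.IsMulRightInvariant] [SFinite m']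

/-- the torus contracts both frames -/
structure Tor (π : G →* (K →L[ℂ] K)) (J : (Z × P → ℝ) → (K →L[ℂ] K))
    (J' : (Z × P' → ℝ) → (K →L[ℂ] K)) (r : P → P) (r' : P' → P') (t : ℕ → G) (a : ℕ → P)
    (a' : ℕ → P') : Prop where
  hJ : ∀ N F, Bm F → π (t N) * J F * π (t N)⁻¹ = J (fun q => F (q.1, q.2 * a N))
  hJ' : ∀ N F, Bm F → π (t N) * J' F * π (t N)⁻¹ = J' (fun q => F (q.1, q.2 * a' N))
  hr : ∀ x, Tendsto (fun N => (a N)⁻¹ * x * a N) atTop (𝓝 (r x))
  hr' : ∀ x, Tendsto (fun N => (a' N)⁻¹ * x * a' N) atTop (𝓝 (r' x))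

variable {r : P →* P} {r' : P' →* P'} {f h : P → ℝ} {f' : P' → ℝ}

/-- **contraction** -/
theorem contr (hO : Op π lam W Ω) (hP : Pr lam W J μ J' μ') {t : ℕ → G} {a : ℕ → P}
    {a' : ℕ → P'} (hT : Tor π J J' r r' t a a') (hr : Continuous r) (hr' : Continuous r')
    (hf : C01 f) (hh : C01 h) (hf' : C01 f')
    (hhf : ∫⁻ y, ‖h y‖ₑ ^ 2 ∂m ≠ ∞) (hff : ∫⁻ y, ‖f' y‖ₑ ^ 2 ∂m' ≠ ∞) :
    Qe m m' J J' (fun q => MonoidHom.id P q.2) (fun q => MonoidHom.id P' q.2) f f' h Ω =
      Qe m m' J J' (fun q => r q.2) (fun q => r' q.2) f f' h Ω := by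
  have i1m : Measurable (MonoidHom.id P) := measurable_id
  have i2m : Measurable (MonoidHom.id P') := measurable_id
  have s1 : Measurable fun q : Z × P => MonoidHom.id P q.2 := i1m.comp measurable_snd
  have s2 : Measurable fun q : Z × P' => MonoidHom.id P' q.2 := i2m.comp measurable_snd
  have key : ∀ u : P → ℝ, C01 u →
      Qe m m' J J' (fun q => r q.2) (fun q => r' q.2) u f' h Ω ≤
      Qe m m' J J' (fun q => MonoidHom.id P q.2) (fun q => MonoidHom.id P' q.2) u f' h Ω := by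
    intro u hu
    have step : ∀ N, Qe m m' J J' (fun q => (a N)⁻¹ * (q.2 * a N))
        (fun q => (a' N)⁻¹ * (q.2 * a' N)) u f' h Ω =
        Qe m m' J J' (fun q => MonoidHom.id P q.2) (fun q => MonoidHom.id P' q.2) u f' h Ω := by
      intro N
      rw [Qe_left m m' (fun q : Z × P => q.2 * a N) (fun q : Z × P' => q.2 * a' N) u h f'
        (a N)⁻¹ (a' N)⁻¹ Ω, ← Qe_tv m m' i1m i2m hu hh hf' hO hP hhf hff (t N)⁻¹]
      have hVU : π (t N)⁻¹ * π (t N) = 1 := by rw [← map_mul, inv_mul_cancel, map_one]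
      rw [Qe_conj m m' (U := π (t N)) (norm_unit hO.adjP _) hVU
        (τ := fun q : Z × P => (q.1, q.2 * a N)) (τ' := fun q : Z × P' => (q.1, q.2 * a' N))
        (measurable_fst.prodMk (measurable_snd.mul_const _))
        (measurable_fst.prodMk (measurable_snd.mul_const _)) (hT.hJ N) (hT.hJ' N) s1 s2 hu hh
        hf' Ω]
      rfl
    refine Qe_fatou m m' hP.hJ hP.hJ' (θ := fun N q => (a N)⁻¹ * (q.2 * a N))
      (θ' := fun N q => (a' N)⁻¹ * (q.2 * a' N)) (fun N => ?_) (fun q => ?_) (fun N => ?_)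
      (fun q => ?_) hu hh hf' Ω (fun N => (step N).le)
    · exact (measurable_snd.mul_const _).const_mul _
    · have := hT.hr q.2
      simp only [mul_assoc] at this
      exact this
    · exact (measurable_snd.mul_const _).const_mul _
    · have := hT.hr' q.2
      simp only [mul_assoc] at this
      exact this
  refine le_antisymm ?_ (key f hf)
  have c1 := Qe_compl m m' hP.hJ hP.hJ' s1 s2 hf hh hf' Ω
  have c2 := Qe_compl m m' hP.hJ hP.hJ' (hr.measurable.comp measurable_snd)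
    (hr'.measurable.comp measurable_snd) (θ := fun q : Z × P => r q.2)
    (θ' := fun q : Z × P' => r' q.2) hf hh hf' Ω
  have hfin : Qe m m' J J' (fun q => MonoidHom.id P q.2) (fun q => MonoidHom.id P' q.2) (cm f)
      f' h Ω ≠ ∞ := by
    refine ((Qe_le m m' hP.hJ hP.hJ' s1 s2 hf.cm hh hf' Ω).trans_lt
      (ENNReal.mul_lt_top (ENNReal.mul_ne_top hff hhf).lt_top
        (ENNReal.pow_lt_top enorm_lt_top))).ne
  have e : Qe m m' J J' (fun q => MonoidHom.id P q.2) (fun q => MonoidHom.id P' q.2) f f' h Ω +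
      Qe m m' J J' (fun q => MonoidHom.id P q.2) (fun q => MonoidHom.id P' q.2) (cm f) f' h Ω ≤
      Qe m m' J J' (fun q => r q.2) (fun q => r' q.2) f f' h Ω +
      Qe m m' J J' (fun q => MonoidHom.id P q.2) (fun q => MonoidHom.id P' q.2) (cm f) f' h Ω := by
    rw [c1, ← c2]
    gcongr
    exact key (cm f) hf.cm
  exact (ENNReal.add_le_add_iff_right hfin).1 e

/-- **translation by a root element** -/
theorem transl (hO : Op π lam W Ω) (hP : Pr lam W J μ J' μ') {u : G} {ν : P}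
    (hu : ∀ F, Bm F → π u * J F * π u⁻¹ = J (fun q => F (q.1, q.2 * ν)))
    (hu' : ∀ F, Bm F → π u * J' F * π u⁻¹ = J' F)
    (hf : C01 f) (hh : C01 h) (hf' : C01 f')
    (hhf : ∫⁻ y, ‖h y‖ₑ ^ 2 ∂m ≠ ∞) (hff : ∫⁻ y, ‖f' y‖ₑ ^ 2 ∂m' ≠ ∞) :
    Qe m m' J J' (fun q => MonoidHom.id P q.2) (fun q => MonoidHom.id P' q.2)
      (fun x => f (x * ν)) f' (fun x => h (x * ν)) Ω =
    Qe m m' J J' (fun q => MonoidHom.id P q.2) (fun q => MonoidHom.id P' q.2) f f' h Ω := by
  have i1m : Measurable (MonoidHom.id P) := measurable_id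
  have i2m : Measurable (MonoidHom.id P') := measurable_id
  have s1 : Measurable fun q : Z × P => MonoidHom.id P q.2 := i1m.comp measurable_snd
  have s2 : Measurable fun q : Z × P' => MonoidHom.id P' q.2 := i2m.comp measurable_snd
  rw [← Qe_tv m m' i1m i2m hf hh hf' hO hP hhf hff u⁻¹]
  have hVU : π u⁻¹ * π u = 1 := by rw [← map_mul, inv_mul_cancel, map_one]
  rw [Qe_conj m m' (U := π u) (norm_unit hO.adjP _) hVU
    (τ := fun q : Z × P => (q.1, q.2 * ν)) (τ' := fun q : Z × P' => q)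
    (measurable_fst.prodMk (measurable_snd.mul_const _)) measurable_id hu hu' s1 s2 hf hh
    hf' Ω]
  refine lintegral_congr fun p => ?_
  have e1 : fn (fun q : Z × P => MonoidHom.id P q.2) (fun x => f (x * ν)) p.1 =
      fn (fun q : Z × P => MonoidHom.id P (q.2 * ν)) f p.1 := by
    funext q
    simp only [fn, MonoidHom.id_apply, mul_assoc]
  have e2 : fn (fun q : Z × P => MonoidHom.id P q.2) (fun x => h (x * ν)) p.1 =
      fn (fun q : Z × P => MonoidHom.id P (q.2 * ν)) h p.1 := by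
    funext q
    simp only [fn, MonoidHom.id_apply, mul_assoc]
  rw [DD, e1, e2]
  rfl

/-- **the Levi level, one root element** -/
theorem levi_one [LocallyCompactSpace P] [m.IsOpenPosMeasure] [m'.IsOpenPosMeasure]
    [IsFiniteMeasureOnCompacts m] [IsFiniteMeasureOnCompacts m']
    (hO : Op π lam W Ω) (hP : Pr lam W J μ J' μ') {t : ℕ → G} {a : ℕ → P}
    {a' : ℕ → P'} (hT : Tor π J J' r r' t a a') (hr : Continuous r) (hr' : Continuous r')
    (hrr : ∀ x, r (r x) = r x) {u : G} {ν : P} (hν : r ν = 1)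
    (hu : ∀ F, Bm F → π u * J F * π u⁻¹ = J (fun q => F (q.1, q.2 * ν)))
    (hu' : ∀ F, Bm F → π u * J' F * π u⁻¹ = J' F)
    {F H : P → ℝ} (hF : CC F) (hH : CC H) (hf' : CC f')
    (hsep : ∀ x ∈ tsupport F, ∀ y ∈ tsupport H, x * ν * x⁻¹ ≠ y * ν * y⁻¹) :
    J (fun q => F (r q.2)) * J' (fun q => f' (r' q.2)) * J (fun q => H (r q.2)) = 0 := by
  have hcc : Continuous fun x : P => x * ν * x⁻¹ := by fun_prop
  obtain ⟨C, hC, hCc⟩ : ∃ C : Set P, C = (fun p : P × P => p.1⁻¹ * p.2) ''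
      (((fun x => x * ν * x⁻¹) '' tsupport F) ×ˢ ((fun x => x * ν * x⁻¹) '' tsupport H)) ∧
      IsClosed C := by
    refine ⟨_, rfl, IsCompact.isClosed ?_⟩
    have c1 : IsCompact ((fun x : P => x * ν * x⁻¹) '' tsupport F) := hF.cpt.isCompact.image hcc
    have c2 : IsCompact ((fun x : P => x * ν * x⁻¹) '' tsupport H) := hH.cpt.isCompact.image hcc
    exact (c1.prod c2).image (by fun_prop)
  have h1C : (1 : P)⁻¹ * 1 ∈ Cᶜ := by
    intro hcon
    rw [hC] at hcon
    obtain ⟨⟨u1, u2⟩, ⟨⟨x, hx, e1⟩, ⟨y, hy, e2⟩⟩, e3⟩ := hcon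
    refine hsep x hx y hy ?_
    simp only at e1 e2 e3
    rw [e1, e2]
    rw [inv_one, one_mul, inv_mul_eq_one] at e3
    exact e3
  have hcont : Continuous fun p : P × P => p.1⁻¹ * p.2 := by fun_prop
  have hnb : (fun p : P × P => p.1⁻¹ * p.2) ⁻¹' Cᶜ ∈ 𝓝 ((1 : P), (1 : P)) :=
    hcont.continuousAt.preimage_mem_nhds (hCc.isOpen_compl.mem_nhds h1C)
  rw [nhds_prod_eq, mem_prod_same_iff] at hnb
  obtain ⟨V₀, hV₀, hV₀C⟩ := hnb
  obtain ⟨V, hVV, hVo, h1V⟩ := mem_nhds_iff.1 hV₀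
  obtain ⟨α, hα1, hα0, hαc, hα⟩ := exists_continuous_one_zero_of_isCompact
    (isCompact_singleton (x := (1 : P))) hVo.isClosed_compl
    (by rw [Set.disjoint_singleton_left]; exact fun hn => hn h1V)
  have hαC : C01 (fun x : P => α x) := ⟨α.continuous, hα⟩
  have hn : Continuous fun x : P => x * (r x)⁻¹ := continuous_id.mul hr.inv
  have hmk : ∀ {B : P → ℝ}, CC B → C01 fun x => α (x * (r x)⁻¹) * B (r x) := fun {B} hB =>
    (hαC.comp hn).mul (hB.c01.comp hr)
  have hmk0 : ∀ {B : P → ℝ}, CC B → ∫⁻ y, ‖α (y * (r y)⁻¹) * B (r y)‖ₑ ^ 2 ∂m ≠ ∞ := by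
    intro B hB
    have hL : IsCompact (tsupport α * tsupport B) := hαc.isCompact.mul hB.cpt.isCompact
    refine lint_lt (hmk hB) hL hL.isClosed fun x hx => ?_
    by_contra hne
    refine hx ?_
    have h1 : α (x * (r x)⁻¹) ≠ 0 := left_ne_zero_of_mul hne
    have h2 : B (r x) ≠ 0 := right_ne_zero_of_mul hne
    exact ⟨_, subset_tsupport _ h1, _, subset_tsupport _ h2, by simp⟩
  have hff : ∫⁻ y, ‖f' y‖ₑ ^ 2 ∂m' ≠ ∞ :=
    lint_lt hf'.c01 hf'.cpt.isCompact (isClosed_tsupport _) fun x hx =>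
      by_contra fun hne => hx (subset_tsupport _ hne)
  obtain ⟨f, hfd⟩ : ∃ f : P → ℝ, f = fun x => α (x * (r x)⁻¹) * F (r x) := ⟨_, rfl⟩
  obtain ⟨h, hhd⟩ : ∃ h : P → ℝ, h = fun x => α (x * (r x)⁻¹) * H (r x) := ⟨_, rfl⟩
  have hf : C01 f := by rw [hfd]; exact hmk hF
  have hh : C01 h := by rw [hhd]; exact hmk hH
  have hhf : ∫⁻ y, ‖h y‖ₑ ^ 2 ∂m ≠ ∞ := by rw [hhd]; exact hmk0 hH
  have hνc : Continuous fun x : P => x * ν := continuous_mul_const ν
  have hfν : C01 fun x => f (x * ν) := hf.comp hνc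
  have hhν : C01 fun x => h (x * ν) := hh.comp hνc
  have hhfν : ∫⁻ y, ‖h (y * ν)‖ₑ ^ 2 ∂m ≠ ∞ := by
    have := lintegral_mul_right_eq_self (μ := m) (fun y => ‖h y‖ₑ ^ 2) ν
    rw [this]
    exact hhf
  have hval : ∀ (B : P → ℝ) (y x : P), α (y * r x * ν * (r (y * r x * ν))⁻¹) *
      B (r (y * r x * ν)) ≠ 0 →
      (y * (r y)⁻¹) * ((r y * r x) * ν * (r y * r x)⁻¹) ∈ V ∧ B (r y * r x) ≠ 0 := by
    intro B y x hne
    have e0 : r (y * r x * ν) = r y * r x := by rw [map_mul, map_mul, hrr, hν, mul_one]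
    rw [e0] at hne
    refine ⟨?_, right_ne_zero_of_mul hne⟩
    have e1 : y * r x * ν * (r y * r x)⁻¹ =
        (y * (r y)⁻¹) * ((r y * r x) * ν * (r y * r x)⁻¹) := by group
    have h1 := left_ne_zero_of_mul hne
    rw [e1] at h1
    by_contra hcon
    exact h1 (hα0 hcon)
  have hzero : Qe m m' J J' (fun q => r q.2) (fun q => r' q.2) (fun x => f (x * ν)) f'
      (fun x => h (x * ν)) Ω = 0 := by
    rw [Qe]
    have : ∀ p : P × P', DD J J' (fun q : Z × P => r q.2) (fun q : Z × P' => r' q.2)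
        (fun x => f (x * ν)) f' (fun x => h (x * ν)) p = 0 := by
      intro p
      by_cases hA : ∃ x1 : P, f (p.1 * r x1 * ν) ≠ 0
      · obtain ⟨x1, hx1⟩ := hA
        have hB : ∀ x2 : P, h (p.1 * r x2 * ν) = 0 := by
          intro x2
          by_contra hx2
          rw [hfd] at hx1
          rw [hhd] at hx2
          obtain ⟨v1, w1⟩ := hval F p.1 x1 hx1
          obtain ⟨v2, w2⟩ := hval H p.1 x2 hx2
          have h3 := hV₀C (Set.mk_mem_prod (hVV v1) (hVV v2))
          refine h3 ?_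
          rw [hC]
          refine ⟨((r p.1 * r x1) * ν * (r p.1 * r x1)⁻¹, (r p.1 * r x2) * ν * (r p.1 * r x2)⁻¹),
            ⟨⟨_, subset_tsupport _ w1, rfl⟩, ⟨_, subset_tsupport _ w2, rfl⟩⟩, ?_⟩
          simp only
          group
        have e : fn (fun q : Z × P => r q.2) (fun x => h (x * ν)) p.1 = fun _ => 0 := by
          funext q
          exact hB q.2
        rw [DD, e, hP.hJ.zero, mul_zero]
      · have e : fn (fun q : Z × P => r q.2) (fun x => f (x * ν)) p.1 = fun _ => 0 := by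
          funext q
          exact by_contra fun hne => hA ⟨q.2, hne⟩
        rw [DD, e, hP.hJ.zero, zero_mul, zero_mul]
    simp only [this]
    simp
  have e1 := contr m m' hO hP hT hr hr' hfν hhν hf'.c01 hhfν hff
  have e2 := transl m m' hO hP hu hu' hf hh hf'.c01 hhf hff
  have e3 := contr m m' hO hP hT hr hr' hf hh hf'.c01 hhf hff
  have e4 : Qe m m' J J' (fun q => r q.2) (fun q => r' q.2) f f' h Ω = 0 := by
    rw [← e3, ← e2, e1, hzero]
  have e5 := DD_zero m m' hr.measurable hr'.measurable hf hh hf'.c01 hO hP hhf hff e4 (1, 1)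
  have e6 : ∀ (B : P → ℝ), fn (fun q : Z × P => r q.2)
      (fun x => α (x * (r x)⁻¹) * B (r x)) 1 = fun q => B (r q.2) := by
    intro B
    funext q
    simp only [fn, one_mul, hrr, mul_inv_cancel]
    rw [hα1 rfl]
    simp
  have e7 : fn (fun q : Z × P' => r' q.2) f' 1 = fun q => f' (r' q.2) := by
    funext q
    simp only [fn, one_mul]
  rw [DD, hfd, hhd] at e5
  simp only [e6, e7] at e5
  exact e5

end G

end Vale.Agent.P092.H113.W
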