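import Vale.Agent.P092.H113.W6

/-!
P092 (helper113), TEAM W, part 7: from compact sets to Borel sets, from sets to functions.
-/

set_option linter.all false

open MeasureTheory Filter Topology ContinuousLinearMap Set
open scoped InnerProductSpace ENNReal Pointwise

namespace Vale.Agent.P092.H113.W

variable {K : Type*} [NormedAddCommGroup K] [InnerProductSpace ℂ K] [CompleteSpace K]

section loc

variable {X P : Type*} [MeasurableSpace X] [TopologicalSpace P] [SecondCountableTopology P]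
  [LocallyCompactSpace P] [T2Space P] [MeasurableSpace P] [BorelSpace P]
  {J : (X → ℝ) → (K →L[ℂ] K)} {μ : K → Measure X}

theorem i1_mul {X : Type*} (A B : Set X) : (fun x => i1 A x * i1 B x) = i1 (A ∩ B) := by
  funext x
  by_cases h1 : x ∈ A <;> by_cases h2 : x ∈ B <;> simp [i1, h1, h2]

/-- inner approximation by compact sets -/
theorem inner (hJ : Bc J μ) {θ : X → P} (hθ : Measurable θ) {B : Set P} (hB : MeasurableSet B)
    (ξ : K) {ε : ℝ} (hε : 0 < ε) : ∃ M ⊆ B, IsCompact M ∧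
      ‖J (i1 (θ ⁻¹' B)) ξ - J (i1 (θ ⁻¹' M)) ξ‖ ≤ ε := by
  haveI : TopologicalSpace.MetrizableSpace P :=
    TopologicalSpace.metrizableSpace_of_t3_secondCountable P
  haveI := hJ.fin ξ
  haveI : IsFiniteMeasure ((μ ξ).map θ) := Measure.isFiniteMeasure_map _ _
  obtain ⟨M, hMB, hM, hlt⟩ := hB.exists_isCompact_sdiff_lt (μ := (μ ξ).map θ)
    (measure_ne_top _ _) (ε := ENNReal.ofReal (ε ^ 2)) (by
      simp only [ne_eq, ENNReal.ofReal_eq_zero, not_le]; positivity)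
  refine ⟨M, hMB, hM, ?_⟩
  have hMm : MeasurableSet M := hM.measurableSet
  have e1 : ‖J (i1 (θ ⁻¹' B)) ξ - J (i1 (θ ⁻¹' M)) ξ‖ₑ ^ 2 = ((μ ξ).map θ) (B \ M) := by
    have e2 : J (i1 (θ ⁻¹' B)) ξ - J (i1 (θ ⁻¹' M)) ξ = J (i1 (θ ⁻¹' (B \ M))) ξ := by
      have e3 : i1 (θ ⁻¹' (B \ M)) = fun x => i1 (θ ⁻¹' B) x - i1 (θ ⁻¹' M) x := by
        funext x
        by_cases h1 : θ x ∈ M
        · have h2 : θ x ∈ B := hMB h1
          simp [i1, h1, h2]
        · by_cases h2 : θ x ∈ B <;> simp [i1, h1, h2]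
      rw [e3, hJ.sub (i1_bm (hθ hB)) (i1_bm (hθ hMm))]
      rfl
    rw [e2, hJ.nrm _ (i1_bm (hθ (hB.diff hMm))), Measure.map_apply hθ (hB.diff hMm),
      ← lintegral_indicator_one (hθ (hB.diff hMm))]
    refine lintegral_congr fun q => ?_
    by_cases hq : q ∈ θ ⁻¹' (B \ M)
    · rw [i1, indicator_of_mem hq, indicator_of_mem hq]; simp
    · rw [i1, indicator_of_notMem hq, indicator_of_notMem hq]; simp
  have e4 : ‖J (i1 (θ ⁻¹' B)) ξ - J (i1 (θ ⁻¹' M)) ξ‖ₑ ^ 2 ≤ ENNReal.ofReal (ε ^ 2) := by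
    rw [e1]; exact hlt.le
  rw [← ofReal_norm_eq_enorm, ← ENNReal.ofReal_pow (norm_nonneg _),
    ENNReal.ofReal_le_ofReal_iff (by positivity)] at e4
  exact le_of_sq_le_sq e4 hε.le

/-- **localisation** -/
theorem loc (hJ : Bc J μ) {θ : X → P} (hθ : Measurable θ) {R : Type*} [MeasurableSpace R]
    {c : P → R} (hc : Measurable c) {T : K →L[ℂ] K}
    (hT : ∀ M₁ M₂ : Set P, IsCompact M₁ → IsCompact M₂ → (∀ x ∈ M₁, ∀ y ∈ M₂, c x ≠ c y) →
      J (i1 (θ ⁻¹' M₁)) * T * J (i1 (θ ⁻¹' M₂)) = 0) {A : Set R} (hA : MeasurableSet A) :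
    T * J (i1 (θ ⁻¹' (c ⁻¹' A))) = J (i1 (θ ⁻¹' (c ⁻¹' A))) * T := by
  have key : ∀ B C : Set R, MeasurableSet B → MeasurableSet C → Disjoint B C →
      J (i1 (θ ⁻¹' (c ⁻¹' B))) * T * J (i1 (θ ⁻¹' (c ⁻¹' C))) = 0 := by
    intro B C hB hC hBC
    refine ContinuousLinearMap.ext fun ξ => ext_inner_left ℂ fun η => ?_
    rw [ContinuousLinearMap.zero_apply, inner_zero_right]
    have hadj : ∀ {D : Set P}, MeasurableSet D → adjoint (J (i1 (θ ⁻¹' D))) = J (i1 (θ ⁻¹' D)) :=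
      fun hD => hJ.adj _ (i1_bm (hθ hD))
    have e1 : ⟪η, (J (i1 (θ ⁻¹' (c ⁻¹' B))) * T * J (i1 (θ ⁻¹' (c ⁻¹' C)))) ξ⟫_ℂ =
        ⟪J (i1 (θ ⁻¹' (c ⁻¹' B))) η, T (J (i1 (θ ⁻¹' (c ⁻¹' C))) ξ)⟫_ℂ := by
      rw [← ContinuousLinearMap.adjoint_inner_right, hadj (hc hB)]; rfl
    rw [e1]
    refine norm_eq_zero.1 (le_antisymm (le_of_forall_pos_le_add fun δ hδ => ?_) (norm_nonneg _))
    obtain ⟨ε, hε, hεδ⟩ : ∃ ε : ℝ, 0 < ε ∧ ε * (‖T‖ * (‖η‖ + ε) + ‖T‖ * (‖ξ‖ + ε)) ≤ δ := by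
      have ht : Tendsto (fun ε : ℝ => ε * (‖T‖ * (‖η‖ + ε) + ‖T‖ * (‖ξ‖ + ε))) (𝓝[>] 0) (𝓝 0) := by
        have : Tendsto (fun ε : ℝ => ε * (‖T‖ * (‖η‖ + ε) + ‖T‖ * (‖ξ‖ + ε))) (𝓝 0)
            (𝓝 (0 * (‖T‖ * (‖η‖ + 0) + ‖T‖ * (‖ξ‖ + 0)))) := by
          apply Continuous.tendsto
          fun_prop
        rw [zero_mul] at this
        exact this.mono_left nhdsWithin_le_nhds
      have h1 := (ht.eventually (gt_mem_nhds hδ)).and self_mem_nhdsWithin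
      obtain ⟨ε, h2, h3⟩ := h1.exists
      exact ⟨ε, h3, h2.le⟩
    obtain ⟨M₁, hM₁, hM₁c, hn₁⟩ := inner hJ hθ (hc hB) η hε
    obtain ⟨M₂, hM₂, hM₂c, hn₂⟩ := inner hJ hθ (hc hC) ξ hε
    have h0 := hT M₁ M₂ hM₁c hM₂c fun x hx y hy hxy =>
      Set.disjoint_left.1 hBC (hM₁ hx) (by have := hM₂ hy; rwa [mem_preimage, ← hxy] at this)
    have e2 : ⟪J (i1 (θ ⁻¹' M₁)) η, T (J (i1 (θ ⁻¹' M₂)) ξ)⟫_ℂ = 0 := by
      have : ⟪J (i1 (θ ⁻¹' M₁)) η, T (J (i1 (θ ⁻¹' M₂)) ξ)⟫_ℂ =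
          ⟪η, (J (i1 (θ ⁻¹' M₁)) * T * J (i1 (θ ⁻¹' M₂))) ξ⟫_ℂ := by
        rw [← ContinuousLinearMap.adjoint_inner_left, ]
        rw [ContinuousLinearMap.adjoint_inner_left, ← hadj hM₁c.measurableSet]
        rw [ContinuousLinearMap.adjoint_inner_left, hadj hM₁c.measurableSet]
        rfl
      rw [this, h0, ContinuousLinearMap.zero_apply, inner_zero_right]
    set a := J (i1 (θ ⁻¹' (c ⁻¹' B))) η
    set a' := J (i1 (θ ⁻¹' M₁)) η
    set b := J (i1 (θ ⁻¹' (c ⁻¹' C))) ξ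
    set b' := J (i1 (θ ⁻¹' M₂)) ξ
    have ha : ‖a‖ ≤ ‖η‖ := hJ.nrm_le (i1_bm (hθ (hc hB))) (fun x => by
      by_cases hx : x ∈ θ ⁻¹' (c ⁻¹' B) <;> simp [i1, hx]) η
    have hb' : ‖b'‖ ≤ ‖ξ‖ := hJ.nrm_le (i1_bm (hθ hM₂c.measurableSet)) (fun x => by
      by_cases hx : x ∈ θ ⁻¹' M₂ <;> simp [i1, hx]) ξ
    have e3 : ⟪a, T b⟫_ℂ = ⟪a, T (b - b')⟫_ℂ + ⟪a - a', T b'⟫_ℂ := by
      rw [map_sub, inner_sub_right, inner_sub_left, e2]
      ring
    rw [e3, zero_add]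
    refine le_trans ?_ hεδ
    calc ‖⟪a, T (b - b')⟫_ℂ + ⟪a - a', T b'⟫_ℂ‖ ≤ ‖⟪a, T (b - b')⟫_ℂ‖ + ‖⟪a - a', T b'⟫_ℂ‖ :=
          norm_add_le _ _
      _ ≤ ‖a‖ * ‖T (b - b')‖ + ‖a - a'‖ * ‖T b'‖ :=
          add_le_add (norm_inner_le_norm _ _) (norm_inner_le_norm _ _)
      _ ≤ (‖η‖ + ε) * (‖T‖ * ε) + ε * (‖T‖ * (‖ξ‖ + ε)) := by
          have t1 : ‖T (b - b')‖ ≤ ‖T‖ * ε :=
            (T.le_opNorm _).trans (mul_le_mul_of_nonneg_left hn₂ (norm_nonneg _))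
          have t2 : ‖T b'‖ ≤ ‖T‖ * (‖ξ‖ + ε) :=
            (T.le_opNorm _).trans (mul_le_mul_of_nonneg_left (by linarith) (norm_nonneg _))
          have t3 : ‖a‖ ≤ ‖η‖ + ε := by linarith
          exact add_le_add (mul_le_mul t3 t1 (norm_nonneg _) (by positivity))
            (mul_le_mul hn₁ t2 (norm_nonneg _) hε.le)
      _ = ε * (‖T‖ * (‖η‖ + ε) + ‖T‖ * (‖ξ‖ + ε)) := by ring
  have h1 := key A Aᶜ hA hA.compl disjoint_compl_right
  have h2 := key Aᶜ A hA.compl hA disjoint_compl_left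
  have hm : MeasurableSet (θ ⁻¹' (c ⁻¹' A)) := hθ (hc hA)
  have h3 : J (i1 (θ ⁻¹' (c ⁻¹' Aᶜ))) = 1 - J (i1 (θ ⁻¹' (c ⁻¹' A))) := by
    have := hJ.ind_compl hm
    exact this
  rw [h3] at h1 h2
  rw [mul_sub, mul_one, sub_eq_zero] at h1
  have h4 : T * J (i1 (θ ⁻¹' (c ⁻¹' A))) =
      J (i1 (θ ⁻¹' (c ⁻¹' A))) * T * J (i1 (θ ⁻¹' (c ⁻¹' A))) := by
    have h5 := h2
    rw [sub_mul, one_mul, sub_mul, sub_eq_zero] at h5
    exact h5
  rw [h4, ← h1]

end loc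

section sig

variable {X : Type*} [mX : MeasurableSpace X] {J : (X → ℝ) → (K →L[ℂ] K)} {μ : K → Measure X}

theorem lim_comm (hJ : Bc J μ) {f : ℕ → X → ℝ} {g : X → ℝ} {C : ℝ} (hf : ∀ k, Measurable (f k))
    (hfC : ∀ k x, |f k x| ≤ C) (hg : ∀ x, Tendsto (fun k => f k x) atTop (𝓝 (g x)))
    {T : K →L[ℂ] K} (hT : ∀ k, T * J (f k) = J (f k) * T) : T * J g = J g * T := by
  refine ContinuousLinearMap.ext fun ξ => ?_
  have h1 := (T.continuous.tendsto _).comp (hJ.lim hf hfC hg ξ)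
  have h2 := hJ.lim hf hfC hg (T ξ)
  have h3 : ∀ k, (T ∘ fun k => J (f k) ξ) k = J (f k) (T ξ) := fun k =>
    congrArg (fun S : K →L[ℂ] K => S ξ) (hT k)
  have h4 : (T ∘ fun k => J (f k) ξ) = fun k => J (f k) (T ξ) := funext h3
  rw [h4] at h1
  exact tendsto_nhds_unique h1 h2

/-- the σ-algebra of the sets whose projections commute with `T` -/
@[reducible] def sig (hJ : Bc J μ) (T : K →L[ℂ] K) : MeasurableSpace X where
  MeasurableSet' A := MeasurableSet[mX] A ∧ T * J (i1 A) = J (i1 A) * T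
  measurableSet_empty := by
    refine ⟨@MeasurableSet.empty _ mX, ?_⟩
    have e : i1 (∅ : Set X) = fun _ => 0 := by funext x; simp [i1]
    rw [e, hJ.zero, mul_zero, zero_mul]
  measurableSet_compl A hA := by
    refine ⟨hA.1.compl, ?_⟩
    have e : J (i1 Aᶜ) = 1 - J (i1 A) := hJ.ind_compl hA.1
    rw [e, mul_sub, sub_mul, hA.2, mul_one, one_mul]
  measurableSet_iUnion A hA := by
    refine ⟨MeasurableSet.iUnion fun n => (hA n).1, ?_⟩
    have hfin : ∀ n, MeasurableSet[mX] (⋃ k < n, A k) ∧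
        T * J (i1 (⋃ k < n, A k)) = J (i1 (⋃ k < n, A k)) * T := by
      intro n
      induction n with
      | zero =>
        have e0 : (⋃ k < 0, A k) = (∅ : Set X) := by simp
        rw [e0]
        refine ⟨@MeasurableSet.empty _ mX, ?_⟩
        have e : i1 (∅ : Set X) = fun _ => 0 := by funext x; simp [i1]
        rw [e, hJ.zero, mul_zero, zero_mul]
      | succ n ih =>
        have e0 : (⋃ k < n + 1, A k) = (⋃ k < n, A k) ∪ A n := by
          ext x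
          simp only [mem_iUnion, mem_union, exists_prop]
          constructor
          · rintro ⟨k, hk, hx⟩
            rcases Nat.lt_succ_iff_lt_or_eq.1 hk with h | h
            · exact Or.inl ⟨k, h, hx⟩
            · exact Or.inr (h ▸ hx)
          · rintro (⟨k, hk, hx⟩ | hx)
            · exact ⟨k, by omega, hx⟩
            · exact ⟨n, by omega, hx⟩
        rw [e0]
        refine ⟨ih.1.union (hA n).1, ?_⟩
        have e1 : i1 ((⋃ k < n, A k) ∪ A n) = fun x => (i1 (⋃ k < n, A k) x + i1 (A n) x) -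
            i1 (⋃ k < n, A k) x * i1 (A n) x := by
          funext x
          by_cases h1 : x ∈ ⋃ k < n, A k <;> by_cases h2 : x ∈ A n <;>
            simp only [i1, h1, h2, mem_union, indicator, true_or, or_true, or_self, if_true,
              if_false] <;> norm_num
        rw [e1, hJ.sub ((i1_bm ih.1).add (i1_bm (hA n).1)) ((i1_bm ih.1).mul (i1_bm (hA n).1)),
          hJ.add _ _ (i1_bm ih.1) (i1_bm (hA n).1), hJ.mul _ _ (i1_bm ih.1) (i1_bm (hA n).1)]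
        rw [mul_sub, mul_add, sub_mul, add_mul, ih.2, (hA n).2, ← mul_assoc, ih.2, mul_assoc,
          (hA n).2, mul_assoc]
    refine lim_comm hJ (f := fun n => i1 (⋃ k < n, A k)) (C := 1) (fun n => (i1_bm (hfin n).1).1)
      (fun n x => ?_) (fun x => ?_) (fun n => (hfin n).2)
    · by_cases hx : x ∈ ⋃ k < n, A k
      · rw [i1, indicator_of_mem hx]; norm_num
      · rw [i1, indicator_of_notMem hx]; norm_num
    · by_cases hx : x ∈ ⋃ n, A n
      · obtain ⟨n₀, hn₀⟩ := mem_iUnion.1 hx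
        refine tendsto_const_nhds.congr' ?_
        filter_upwards [eventually_gt_atTop n₀] with n hn
        have : x ∈ ⋃ k < n, A k := mem_iUnion.2 ⟨n₀, mem_iUnion.2 ⟨hn, hn₀⟩⟩
        rw [i1, i1, indicator_of_mem this, indicator_of_mem hx]
      · refine tendsto_const_nhds.congr fun n => ?_
        have : x ∉ ⋃ k < n, A k := fun h => by
          obtain ⟨k, hk⟩ := mem_iUnion.1 h
          obtain ⟨_, hk2⟩ := mem_iUnion.1 hk
          exact hx (mem_iUnion.2 ⟨k, hk2⟩)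
        rw [i1, i1, indicator_of_notMem this, indicator_of_notMem hx]

theorem simple_comm (hJ : Bc J μ) {R : Type*} [MeasurableSpace R] {θ : X → R} (hθ : Measurable θ)
    {T : K →L[ℂ] K}
    (hT : ∀ B : Set R, MeasurableSet B → T * J (i1 (θ ⁻¹' B)) = J (i1 (θ ⁻¹' B)) * T)
    (s : SimpleFunc R ℝ) : Bm (fun x => s (θ x)) ∧
      T * J (fun x => s (θ x)) = J (fun x => s (θ x)) * T := by
  induction s using SimpleFunc.induction with
  | const c hA =>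
    rename_i A
    have e : (fun x => (SimpleFunc.piecewise A hA (SimpleFunc.const R c)
        (SimpleFunc.const R 0)) (θ x)) = fun x => c * i1 (θ ⁻¹' A) x := by
      funext x
      by_cases hx : θ x ∈ A
      · simp [i1, hx]
      · simp [i1, hx]
    rw [e]
    refine ⟨(i1_bm (hθ hA)).smul c, ?_⟩
    rw [hJ.smul _ _ (i1_bm (hθ hA)), mul_smul_comm, smul_mul_assoc, hT A hA]
  | add hd h1 h2 =>
    rename_i f g
    have e : (fun x => (f + g) (θ x)) = fun x => f (θ x) + g (θ x) := rfl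
    rw [e]
    refine ⟨h1.1.add h2.1, ?_⟩
    rw [hJ.add _ _ h1.1 h2.1, mul_add, add_mul, h1.2, h2.2]

/-- from sets to functions -/
theorem comm_fun (hJ : Bc J μ) {R : Type*} [MeasurableSpace R] {θ : X → R} (hθ : Measurable θ)
    {T : K →L[ℂ] K}
    (hT : ∀ B : Set R, MeasurableSet B → T * J (i1 (θ ⁻¹' B)) = J (i1 (θ ⁻¹' B)) * T)
    {g : R → ℝ} (hg : Bm g) : T * J (fun x => g (θ x)) = J (fun x => g (θ x)) * T := by
  obtain ⟨C, hC⟩ := hg.2
  have hC' : ∀ x, ‖g x‖ ≤ max C 0 := fun x => (hC x).trans (le_max_left _ _)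
  have hS : StronglyMeasurable g := hg.1.stronglyMeasurable
  refine lim_comm hJ (f := fun n x => hS.approxBounded (max C 0) n (θ x)) (C := max C 0)
    (fun n => (SimpleFunc.measurable _).comp hθ) (fun n x => ?_) (fun x => ?_)
    (fun n => (simple_comm hJ hθ hT _).2)
  · exact StronglyMeasurable.norm_approxBounded_le hS (le_max_right _ _) n _
  · exact StronglyMeasurable.tendsto_approxBounded_of_norm_le hS (hC' _)

end sig

end Vale.Agent.P092.H113.W
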