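import Vale.Agent.P092.H113.W7

/-!
P092 (helper113), TEAM W, part 8: **the step 'adjacent chambers commute ⟹ all chambers commute'**,
for all residues (split or not).
-/

set_option linter.all false

open MeasureTheory Filter Topology ContinuousLinearMap Set
open scoped InnerProductSpace ENNReal Pointwise

namespace Vale.Agent.P092.H113.W

variable {K : Type*} [NormedAddCommGroup K] [InnerProductSpace ℂ K] [CompleteSpace K]

theorem bumps {P R : Type*} [TopologicalSpace P] [LocallyCompactSpace P] [T2Space P]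
    [TopologicalSpace R] [T2Space R] {c : P → R} (hc : Continuous c) {M₁ M₂ : Set P}
    (h₁ : IsCompact M₁) (h₂ : IsCompact M₂) (h : ∀ x ∈ M₁, ∀ y ∈ M₂, c x ≠ c y) :
    ∃ F H : P → ℝ, CC F ∧ CC H ∧ (∀ x ∈ M₁, F x = 1) ∧ (∀ x ∈ M₂, H x = 1) ∧
      ∀ x ∈ tsupport F, ∀ y ∈ tsupport H, c x ≠ c y := by
  have hd : Disjoint (c '' M₁) (c '' M₂) := by
    rw [Set.disjoint_left]
    rintro z ⟨x, hx, rfl⟩ ⟨y, hy, hxy⟩
    exact h x hx y hy hxy.symm
  obtain ⟨O₁, O₂, ho₁, ho₂, hs₁, hs₂, hO⟩ :=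
    SeparatedNhds.of_isCompact_isCompact (h₁.image hc) (h₂.image hc) hd
  have one : ∀ (M : Set P) (O : Set R), IsCompact M → IsOpen O → c '' M ⊆ O →
      ∃ F : P → ℝ, CC F ∧ (∀ x ∈ M, F x = 1) ∧ ∀ x ∈ tsupport F, c x ∈ O := by
    intro M O hM hO hMO
    obtain ⟨L, hL, hLc, hML, hLU⟩ := exists_compact_closed_between hM (hO.preimage hc)
      (fun x hx => hMO ⟨x, hx, rfl⟩)
    obtain ⟨F, hF1, hF0, hFc, hF⟩ := exists_continuous_one_zero_of_isCompact hM
      isOpen_interior.isClosed_compl (disjoint_compl_right_iff_subset.2 hML)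
    refine ⟨fun x => F x, ⟨⟨F.continuous, hF⟩, hFc⟩, fun x hx => hF1 hx, fun x hx => ?_⟩
    have hsub : tsupport (fun x => F x) ⊆ L := by
      refine closure_minimal (fun z hz => ?_) hLc
      by_contra hcon
      exact hz (hF0 fun hz' => hcon (interior_subset hz'))
    exact hLU (hsub hx)
  obtain ⟨F, hF, hF1, hFO⟩ := one M₁ O₁ h₁ ho₁ hs₁
  obtain ⟨H, hH, hH1, hHO⟩ := one M₂ O₂ h₂ ho₂ hs₂
  exact ⟨F, H, hF, hH, hF1, hH1, fun x hx y hy hxy =>
    Set.disjoint_left.1 hO (hFO x hx) (hxy ▸ hHO y hy)⟩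

theorem cc_left {P : Type*} [Group P] [TopologicalSpace P] [IsTopologicalGroup P] {f : P → ℝ}
    (hf : CC f) (y : P) : CC fun x => f (y * x) :=
  ⟨hf.c01.comp (continuous_const_mul y), hf.cpt.comp_homeomorph (Homeomorph.mulLeft y)⟩

section G

variable {Z P P' : Type*} [MeasurableSpace Z]
  [Group P] [TopologicalSpace P] [IsTopologicalGroup P] [SecondCountableTopology P]
  [LocallyCompactSpace P] [T2Space P] [MeasurableSpace P] [BorelSpace P]
  [Group P'] [TopologicalSpace P'] [IsTopologicalGroup P'] [SecondCountableTopology P']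
  [LocallyCompactSpace P'] [T2Space P'] [MeasurableSpace P'] [BorelSpace P']
  {J : (Z × P → ℝ) → (K →L[ℂ] K)} {μ : K → Measure (Z × P)}
  {J' : (Z × P' → ℝ) → (K →L[ℂ] K)} {μ' : K → Measure (Z × P')}
  {G Γ : Type*} [Group G] [Group Γ] {π : G →* (K →L[ℂ] K)} {lam : Γ →* (K →L[ℂ] K)}
  {W : Set (K →L[ℂ] K)} {Ω : K}
  (m : Measure P) [m.IsMulRightInvariant] [SFinite m] [m.IsOpenPosMeasure]
  [IsFiniteMeasureOnCompacts m]
  (m' : Measure P') [m'.IsMulRightInvariant] [SFinite m'] [m'.IsOpenPosMeasure]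
  [IsFiniteMeasureOnCompacts m']
  {r : P →* P} {r' : P' →* P'} {t : ℕ → G} {a : ℕ → P} {a' : ℕ → P'}

theorem cut (hJ : Bc J μ) {θ : Z × P → P} (hθ : Measurable θ) {M : Set P} (hM : MeasurableSet M)
    {F : P → ℝ} (hF : CC F) (h1 : ∀ x ∈ M, F x = 1) :
    J (i1 (θ ⁻¹' M)) * J (fun q => F (θ q)) = J (i1 (θ ⁻¹' M)) ∧
    J (fun q => F (θ q)) * J (i1 (θ ⁻¹' M)) = J (i1 (θ ⁻¹' M)) := by
  have hb : Bm fun q => F (θ q) := ⟨hF.c01.1.measurable.comp hθ, 1, fun x => hF.c01.abs_le _⟩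
  have e : J (i1 (θ ⁻¹' M)) * J (fun q => F (θ q)) = J (i1 (θ ⁻¹' M)) := by
    rw [← hJ.mul _ _ (i1_bm (hθ hM)) hb]
    refine congrArg J (funext fun q => ?_)
    by_cases hq : θ q ∈ M
    · rw [h1 _ hq, mul_one]
    · have : i1 (θ ⁻¹' M) q = 0 := indicator_of_notMem (show q ∉ θ ⁻¹' M from hq) _
      rw [this, zero_mul]
  exact ⟨e, by rw [← hJ.comm (i1_bm (hθ hM)) hb, e]⟩

theorem lint_cc {R : Type*} [TopologicalSpace R] [T2Space R] [MeasurableSpace R] [BorelSpace R]
    {n : Measure R} [IsFiniteMeasureOnCompacts n] {f : R → ℝ} (hf : CC f) :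
    ∫⁻ y, ‖f y‖ₑ ^ 2 ∂n ≠ ∞ :=
  lint_lt hf.c01 hf.cpt.isCompact (isClosed_tsupport _) fun x hx =>
    by_contra fun hne => hx (subset_tsupport _ hne)

include m m'

/-- the Levi level -/
theorem levi [StandardBorelSpace P] (hO : Op π lam W Ω) (hP : Pr lam W J μ J' μ')
    (hT : Tor π J J' r r' t a a') (hr : Continuous r) (hr' : Continuous r')
    (hrr : ∀ x, r (r x) = r x) {ι : Type*} [Countable ι] {u : ι → G} {ν : ι → P}
    (hν : ∀ i, r (ν i) = 1)
    (hu : ∀ i F, Bm F → π (u i) * J F * π (u i)⁻¹ = J (fun q => F (q.1, q.2 * ν i)))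
    (hu' : ∀ i F, Bm F → π (u i) * J' F * π (u i)⁻¹ = J' F)
    (hsep : ∀ x y, (∀ i, r x * ν i * (r x)⁻¹ = r y * ν i * (r y)⁻¹) → r x = r y)
    {f' : P' → ℝ} (hf' : CC f') {g : P → ℝ} (hg : Bm g) :
    J' (fun q => f' (r' q.2)) * J (fun q => g (r q.2)) =
      J (fun q => g (r q.2)) * J' (fun q => f' (r' q.2)) := by
  have hθ : Measurable fun q : Z × P => r q.2 := hr.measurable.comp measurable_snd
  obtain ⟨T, hTd⟩ : ∃ T : K →L[ℂ] K, T = J' (fun q => f' (r' q.2)) := ⟨_, rfl⟩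
  rw [← hTd]
  have hc : ∀ i, Continuous fun x : P => x * ν i * x⁻¹ := fun i => by fun_prop
  have h1 : ∀ i (A : Set P), MeasurableSet A →
      T * J (i1 ((fun q : Z × P => r q.2) ⁻¹' ((fun x => x * ν i * x⁻¹) ⁻¹' A))) =
        J (i1 ((fun q : Z × P => r q.2) ⁻¹' ((fun x => x * ν i * x⁻¹) ⁻¹' A))) * T := by
    intro i A hA
    refine loc hP.hJ hθ (hc i).measurable (fun M₁ M₂ hM₁ hM₂ hM => ?_) hA
    obtain ⟨F, H, hF, hH, hF1, hH1, hFH⟩ := bumps (hc i) hM₁ hM₂ hM
    have e := levi_one m m' hO hP hT hr hr' hrr (hν i) (hu i) (hu' i) hF hH hf' hFH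
    rw [← hTd] at e
    rw [← (cut hP.hJ hθ hM₁.measurableSet hF hF1).1, ← (cut hP.hJ hθ hM₂.measurableSet hH hH1).2]
    calc J (i1 ((fun q : Z × P => r q.2) ⁻¹' M₁)) * J (fun q => F (r q.2)) * T *
          (J (fun q => H (r q.2)) * J (i1 ((fun q : Z × P => r q.2) ⁻¹' M₂))) =
        J (i1 ((fun q : Z × P => r q.2) ⁻¹' M₁)) * (J (fun q => F (r q.2)) * T *
          J (fun q => H (r q.2))) * J (i1 ((fun q : Z × P => r q.2) ⁻¹' M₂)) := by
          simp only [mul_assoc]
      _ = 0 := by rw [e, mul_zero, zero_mul]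
  obtain ⟨Ψ, hΨ⟩ : ∃ Ψ : Z × P → (ι → P), Ψ = fun q i => r q.2 * ν i * (r q.2)⁻¹ := ⟨_, rfl⟩
  have h2 : @Measurable (Z × P) (ι → P) (sig hP.hJ T) MeasurableSpace.pi Ψ := by
    rw [@measurable_pi_iff]
    intro i A hA
    rw [hΨ]
    exact ⟨hθ ((hc i).measurable hA), h1 i A hA⟩
  haveI : StandardBorelSpace {x : P // r x = x} :=
    MeasurableSet.standardBorel (isClosed_eq hr continuous_id).measurableSet
  have h3 : MeasurableEmbedding fun (x : {x : P // r x = x}) (i : ι) => x.1 * ν i * (x.1)⁻¹ := by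
    refine Measurable.measurableEmbedding ?_ ?_
    · rw [measurable_pi_iff]
      exact fun i => (hc i).measurable.comp measurable_subtype_coe
    · intro x y hxy
      apply Subtype.ext
      have := hsep x.1 y.1 fun i => by
        rw [x.2, y.2]; exact congrFun hxy i
      rwa [x.2, y.2] at this
  refine comm_fun hP.hJ hθ (fun B hB => ?_) hg
  have h4 := h3.measurableSet_image.2 (measurable_subtype_coe hB :
    MeasurableSet ((fun x : {x : P // r x = x} => x.1) ⁻¹' B))
  have h5 := h2 h4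
  have e : Ψ ⁻¹' ((fun (x : {x : P // r x = x}) (i : ι) => x.1 * ν i * (x.1)⁻¹) ''
      ((fun x : {x : P // r x = x} => x.1) ⁻¹' B)) = (fun q : Z × P => r q.2) ⁻¹' B := by
    ext q
    rw [hΨ]
    constructor
    · rintro ⟨x, hx, hxq⟩
      have : x = ⟨r q.2, hrr _⟩ := h3.injective hxq
      rw [this] at hx
      exact hx
    · intro hq
      exact ⟨⟨r q.2, hrr _⟩, hq, rfl⟩
  rw [e] at h5
  exact h5.2

/-- the level of the parabolic group -/
theorem plev [StandardBorelSpace P] (hO : Op π lam W Ω) (hP : Pr lam W J μ J' μ')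
    (hT : Tor π J J' r r' t a a') (hr : Continuous r) (hr' : Continuous r')
    (hrr : ∀ x, r (r x) = r x) {ι : Type*} [Countable ι] {u : ι → G} {ν : ι → P}
    (hν : ∀ i, r (ν i) = 1)
    (hu : ∀ i F, Bm F → π (u i) * J F * π (u i)⁻¹ = J (fun q => F (q.1, q.2 * ν i)))
    (hu' : ∀ i F, Bm F → π (u i) * J' F * π (u i)⁻¹ = J' F)
    (hsep : ∀ x y, (∀ i, r x * ν i * (r x)⁻¹ = r y * ν i * (r y)⁻¹) → r x = r y)
    {f' : P' → ℝ} (hf' : CC f') {f h : P → ℝ} (hf : C01 f) (hh : CC h)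
    (hfh : ∀ x, f x * h x = 0) :
    J (fun q => f q.2) * J' (fun q => f' q.2) * J (fun q => h q.2) = 0 := by
  have hθ : Measurable fun q : Z × P => r q.2 := hr.measurable.comp measurable_snd
  have h0 : Qe m m' J J' (fun q => r q.2) (fun q => r' q.2) f f' h Ω = 0 := by
    rw [Qe]
    have : ∀ p : P × P', DD J J' (fun q : Z × P => r q.2) (fun q : Z × P' => r' q.2) f f' h p =
        0 := by
      intro p
      have e1 := levi m m' hO hP hT hr hr' hrr hν hu hu' hsep (cc_left hf' p.2)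
        (g := fun x => f (p.1 * x))
        ⟨(hf.1.comp (continuous_const_mul p.1)).measurable, 1, fun x => hf.abs_le _⟩
      have e2 : J' (fn (fun q : Z × P' => r' q.2) f' p.2) * J (fn (fun q : Z × P => r q.2) f p.1) =
          J (fn (fun q : Z × P => r q.2) f p.1) * J' (fn (fun q : Z × P' => r' q.2) f' p.2) := e1
      have e3 : J (fn (fun q : Z × P => r q.2) f p.1) * J (fn (fun q : Z × P => r q.2) h p.1) =
          0 := by
        rw [← hP.hJ.mul _ _ (fn_bm hθ hf _) (fn_bm hθ hh.c01 _)]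
        have : (fun x => fn (fun q : Z × P => r q.2) f p.1 x *
            fn (fun q : Z × P => r q.2) h p.1 x) = fun _ => 0 := by
          funext x
          exact hfh _
        rw [this, hP.hJ.zero]
      rw [DD, ← e2, mul_assoc, e3, mul_zero]
    simp only [this]
    simp
  have e4 := contr m m' hO hP hT hr hr' hf hh.c01 hf'.c01 (lint_cc hh) (lint_cc hf')
  rw [h0] at e4
  have e5 := DD_zero m m' (ρ := MonoidHom.id P) (ρ' := MonoidHom.id P') measurable_id
    measurable_id hf hh.c01 hf'.c01 hO hP (lint_cc hh) (lint_cc hf') e4 (1, 1)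
  have e6 : ∀ (B : P → ℝ), fn (fun q : Z × P => MonoidHom.id P q.2) B 1 = fun q => B q.2 := by
    intro B
    funext q
    simp only [fn, one_mul, MonoidHom.id_apply]
  have e7 : fn (fun q : Z × P' => MonoidHom.id P' q.2) f' 1 = fun q => f' q.2 := by
    funext q
    simp only [fn, one_mul, MonoidHom.id_apply]
  rw [DD] at e5
  simp only [e6, e7] at e5
  exact e5

theorem wstep_aux [StandardBorelSpace P] (hO : Op π lam W Ω) (hP : Pr lam W J μ J' μ')
    (hT : Tor π J J' r r' t a a') (hr : Continuous r) (hr' : Continuous r')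
    (hrr : ∀ x, r (r x) = r x) {ι : Type*} [Countable ι] {u : ι → G} {ν : ι → P}
    (hν : ∀ i, r (ν i) = 1)
    (hu : ∀ i F, Bm F → π (u i) * J F * π (u i)⁻¹ = J (fun q => F (q.1, q.2 * ν i)))
    (hu' : ∀ i F, Bm F → π (u i) * J' F * π (u i)⁻¹ = J' F)
    (hsep : ∀ x y, (∀ i, r x * ν i * (r x)⁻¹ = r y * ν i * (r y)⁻¹) → r x = r y)
    {F : Z × P → ℝ} (hF : Bm F) {F' : Z × P' → ℝ} (hF' : Bm F') :
    J F * J' F' = J' F' * J F := by
  have hsndm : Measurable fun q : Z × P => q.2 := measurable_snd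
  -- compactly supported functions of the second frame
  have h1 : ∀ f' : P' → ℝ, CC f' → ∀ F : Z × P → ℝ, Bm F →
      J' (fun q => f' q.2) * J F = J F * J' (fun q => f' q.2) := by
    intro f' hf' F hF
    obtain ⟨T, hTd⟩ : ∃ T : K →L[ℂ] K, T = J' (fun q => f' q.2) := ⟨_, rfl⟩
    have hb' : Bm fun q : Z × P' => f' q.2 :=
      ⟨hf'.c01.1.measurable.comp measurable_snd, 1, fun x => hf'.c01.abs_le _⟩
    rw [← hTd]
    have hA : ∀ B : Set P, MeasurableSet B →
        T * J (i1 ((fun q : Z × P => q.2) ⁻¹' B)) = J (i1 ((fun q : Z × P => q.2) ⁻¹' B)) * T := by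
      intro B hB
      refine loc hP.hJ hsndm (c := fun x : P => x) measurable_id
        (fun M₁ M₂ hM₁ hM₂ hM => ?_) hB
      obtain ⟨f, h, hf, hh, hf1, hh1, hfh⟩ := bumps (continuous_id (X := P)) hM₁ hM₂ hM
      have hz : ∀ x, f x * h x = 0 := fun x => by
        by_contra hne
        exact hfh x (subset_tsupport _ (left_ne_zero_of_mul hne)) x
          (subset_tsupport _ (right_ne_zero_of_mul hne)) rfl
      have e := plev m m' hO hP hT hr hr' hrr hν hu hu' hsep hf' hf.c01 hh hz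
      rw [← hTd] at e
      rw [← (cut hP.hJ hsndm hM₁.measurableSet hf hf1).1,
        ← (cut hP.hJ hsndm hM₂.measurableSet hh hh1).2]
      calc J (i1 ((fun q : Z × P => q.2) ⁻¹' M₁)) * J (fun q => f q.2) * T *
            (J (fun q => h q.2) * J (i1 ((fun q : Z × P => q.2) ⁻¹' M₂))) =
          J (i1 ((fun q : Z × P => q.2) ⁻¹' M₁)) * (J (fun q => f q.2) * T *
            J (fun q => h q.2)) * J (i1 ((fun q : Z × P => q.2) ⁻¹' M₂)) := by
            simp only [mul_assoc]
        _ = 0 := by rw [e, mul_zero, zero_mul]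
    have hle : (Prod.instMeasurableSpace : MeasurableSpace (Z × P)) ≤ sig hP.hJ T := by
      refine sup_le ?_ ?_
      · rintro A ⟨B, hB, rfl⟩
        refine ⟨measurable_fst hB, ?_⟩
        have hB' : MeasurableSet (Prod.fst ⁻¹' B : Set (Z × P')) := measurable_fst hB
        rw [hP.hZ B hB, hTd]
        exact hP.hJ'.comm hb' (i1_bm hB')
      · rintro A ⟨B, hB, rfl⟩
        exact ⟨measurable_snd hB, hA B hB⟩
    have := comm_fun hP.hJ (θ := fun q : Z × P => q) measurable_id (T := T)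
      (fun B hB => (hle B hB).2) hF
    exact this
  -- all functions of the second frame
  obtain ⟨S, hS⟩ : ∃ S : K →L[ℂ] K, S = J F := ⟨_, rfl⟩
  rw [← hS]
  haveI : TopologicalSpace.MetrizableSpace P' :=
    TopologicalSpace.metrizableSpace_of_t3_secondCountable P'
  letI := TopologicalSpace.metrizableSpaceMetric P'
  have hcl : ∀ C : Set P', IsClosed C →
      S * J' (i1 ((fun q : Z × P' => q.2) ⁻¹' C)) = J' (i1 ((fun q : Z × P' => q.2) ⁻¹' C)) * S := by
    intro C hC
    have hχ : ∀ n : ℕ, ∃ χ : P' → ℝ, CC χ ∧ ∀ x ∈ CompactExhaustion.choice P' n, χ x = 1 := by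
      intro n
      obtain ⟨χ, h1, -, h3, h4⟩ := exists_continuous_one_zero_of_isCompact
        ((CompactExhaustion.choice P').isCompact n) (t := ∅) isClosed_empty
        (Set.disjoint_empty _)
      exact ⟨fun x => χ x, ⟨⟨χ.continuous, h4⟩, h3⟩, fun x hx => h1 hx⟩
    choose χ hχc hχ1 using hχ
    have hapc : ∀ n, C01 fun x => ((hC.apprSeq n x : NNReal) : ℝ) := fun n =>
      ⟨NNReal.continuous_coe.comp (hC.apprSeq n).continuous, fun x =>
        ⟨NNReal.coe_nonneg _, by
          exact_mod_cast HasOuterApproxClosed.apprSeq_apply_le_one hC n x⟩⟩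
    have hgc : ∀ n, CC fun x => ((hC.apprSeq n x : NNReal) : ℝ) * χ n x := fun n =>
      ⟨(hapc n).mul (hχc n).c01, (hχc n).cpt.mul_left⟩
    refine lim_comm hP.hJ' (f := fun n q => ((hC.apprSeq n q.2 : NNReal) : ℝ) * χ n q.2)
      (C := 1) (fun n => (hgc n).c01.1.measurable.comp measurable_snd)
      (fun n q => (hgc n).c01.abs_le _) (fun q => ?_) (fun n => ?_)
    · obtain ⟨n₀, hn₀⟩ := mem_iUnion.1 ((CompactExhaustion.choice P').iUnion_eq ▸ mem_univ q.2 :
        q.2 ∈ ⋃ n, CompactExhaustion.choice P' n)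
      have t1 : Tendsto (fun n => ((hC.apprSeq n q.2 : NNReal) : ℝ)) atTop
          (𝓝 (i1 ((fun q : Z × P' => q.2) ⁻¹' C) q)) := by
        have t2 := (tendsto_pi_nhds.1 (HasOuterApproxClosed.tendsto_apprSeq hC)) q.2
        have t3 := (NNReal.continuous_coe.tendsto _).comp t2
        have e : ((C.indicator (fun _ => (1 : NNReal)) q.2 : NNReal) : ℝ) =
            i1 ((fun q : Z × P' => q.2) ⁻¹' C) q := by
          by_cases hq : q.2 ∈ C
          · rw [indicator_of_mem hq, i1, indicator_of_mem (by exact hq)]; simp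
          · rw [indicator_of_notMem hq, i1, indicator_of_notMem (by exact hq)]; simp
        rw [e] at t3
        exact t3
      refine t1.congr' ?_
      filter_upwards [eventually_ge_atTop n₀] with n hn
      rw [hχ1 n q.2 ((CompactExhaustion.choice P').subset hn hn₀), mul_one]
    · rw [hS]
      exact (h1 _ (hgc n) F hF).symm
  have hle : (Prod.instMeasurableSpace : MeasurableSpace (Z × P')) ≤ sig hP.hJ' S := by
    refine sup_le ?_ ?_
    · rintro A ⟨B, hB, rfl⟩
      refine ⟨measurable_fst hB, ?_⟩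
      have hB' : MeasurableSet (Prod.fst ⁻¹' B : Set (Z × P)) := measurable_fst hB
      rw [← hP.hZ B hB, hS]
      exact hP.hJ.comm hF (i1_bm hB')
    · have hm : (inferInstance : MeasurableSpace P') ≤ (sig hP.hJ' S).map (fun q => q.2) := by
        refine le_trans (le_of_eq ((BorelSpace.measurable_eq (α := P')).trans
          borel_eq_generateFrom_isClosed)) ?_
        refine MeasurableSpace.generateFrom_le fun C hC => ?_
        exact ⟨measurable_snd (IsClosed.measurableSet hC), hcl C hC⟩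
      exact MeasurableSpace.comap_le_iff_le_map.2 hm
  have := comm_fun hP.hJ' (θ := fun q : Z × P' => q) measurable_id (T := S)
    (fun B hB => (hle B hB).2) hF'
  exact this

end G

/-- **THEOREM W, the inductive step, all residues.** -/
theorem wstep {Z P P' : Type*} [MeasurableSpace Z]
    [Group P] [TopologicalSpace P] [IsTopologicalGroup P] [SecondCountableTopology P]
    [LocallyCompactSpace P] [T2Space P] [MeasurableSpace P] [BorelSpace P] [StandardBorelSpace P]
    [Group P'] [TopologicalSpace P'] [IsTopologicalGroup P'] [SecondCountableTopology P']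
    [LocallyCompactSpace P'] [T2Space P'] [MeasurableSpace P'] [BorelSpace P']
    {J : (Z × P → ℝ) → (K →L[ℂ] K)} {μ : K → Measure (Z × P)}
    {J' : (Z × P' → ℝ) → (K →L[ℂ] K)} {μ' : K → Measure (Z × P')}
    {G Γ : Type*} [Group G] [Group Γ] {π : G →* (K →L[ℂ] K)} {lam : Γ →* (K →L[ℂ] K)}
    {W : Set (K →L[ℂ] K)} {Ω : K} {r : P →* P} {r' : P' →* P'} {t : ℕ → G} {a : ℕ → P}
    {a' : ℕ → P'} (hO : Op π lam W Ω) (hP : Pr lam W J μ J' μ')
    (hT : Tor π J J' r r' t a a') (hr : Continuous r) (hr' : Continuous r')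
    (hrr : ∀ x, r (r x) = r x) {ι : Type*} [Countable ι] {u : ι → G} {ν : ι → P}
    (hν : ∀ i, r (ν i) = 1)
    (hu : ∀ i F, Bm F → π (u i) * J F * π (u i)⁻¹ = J (fun q => F (q.1, q.2 * ν i)))
    (hu' : ∀ i F, Bm F → π (u i) * J' F * π (u i)⁻¹ = J' F)
    (hsep : ∀ x y, (∀ i, r x * ν i * (r x)⁻¹ = r y * ν i * (r y)⁻¹) → r x = r y)
    {F : Z × P → ℝ} (hF : Bm F) {F' : Z × P' → ℝ} (hF' : Bm F') :
    J F * J' F' = J' F' * J F := by
  haveI : (Measure.haar : Measure P).inv.IsOpenPosMeasure := by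
    refine ⟨fun U hU hne => ?_⟩
    rw [Measure.inv_apply]
    exact (hU.inv.measure_pos _ hne.inv).ne'
  haveI : (Measure.haar : Measure P').inv.IsOpenPosMeasure := by
    refine ⟨fun U hU hne => ?_⟩
    rw [Measure.inv_apply]
    exact (hU.inv.measure_pos _ hne.inv).ne'
  haveI : IsFiniteMeasureOnCompacts (Measure.haar : Measure P).inv :=
    ⟨fun L hL => by rw [Measure.inv_apply]; exact hL.inv.measure_lt_top⟩
  haveI : IsFiniteMeasureOnCompacts (Measure.haar : Measure P').inv :=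
    ⟨fun L hL => by rw [Measure.inv_apply]; exact hL.inv.measure_lt_top⟩
  exact wstep_aux (Measure.haar : Measure P).inv (Measure.haar : Measure P').inv hO hP hT hr hr'
    hrr hν hu hu' hsep hF hF'

end Vale.Agent.P092.H113.W
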